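import Vale.Agent.P042.Defs

/-! P042: Chinese remainder for a block (module BLOCK, helper27). -/

set_option autoImplicit false

namespace Vale.Agent.P042

open Polynomial in
/-- module BLOCK -/
theorem block (hL : S_LOCP) (hB : S_BLOCK1) : S_BLOCK := by
  classical
  obtain ⟨w, p0, hw, hblock⟩ := hB
  refine ⟨w, max p0 2, hw, fun a b c P hPw hP => ?_⟩
  have hprime : ∀ i : {p // p ∈ P}, Fact (i.1).Prime := fun i => ⟨(hP i.1 i.2).1⟩
  have hne : ∀ i : {p // p ∈ P}, NeZero i.1 := fun i => ⟨(hP i.1 i.2).1.ne_zero⟩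
  have hgt : ∀ i : {p // p ∈ P}, p0 < i.1 ∧ i.1 ≠ 2 := by
    intro i
    have := (hP i.1 i.2).2.1
    constructor
    · exact lt_of_le_of_lt (le_max_left _ _) this
    · have h2 := lt_of_le_of_lt (le_max_right p0 2) this
      omega
  have ha : ∀ i : {p // p ∈ P}, ((a : ℤ) : ZMod i.1) ≠ 0 := by
    intro i h
    exact (hP i.1 i.2).2.2 ((ZMod.intCast_zmod_eq_zero_iff_dvd _ _).mp h)
  set H : ∀ i : {p // p ∈ P}, Finset (ZMod i.1) := fun i =>
    Finset.univ.image (fun x : ZMod i.1 => (a : ZMod i.1) * x ^ 2 + (b : ZMod i.1) * x +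
      (c : ZMod i.1)) with hH
  obtain ⟨R, hRcard, hR⟩ := hblock {p // p ∈ P} (by rw [Fintype.card_coe]; exact hPw)
    (fun i => i.1) (fun i => (hgt i).1) H
    (fun i => (hL i.1 (hgt i).2 _ _ _ (ha i) (H i) rfl).1)
    (fun i => (hL i.1 (hgt i).2 _ _ _ (ha i) (H i) rfl).2)
  -- Chinese remainder
  have hcrt : ∀ x : (∀ i : {p // p ∈ P}, ZMod i.1), ∃ r : ℕ, r < ∏ p ∈ P, p ∧
      ∀ i : {p // p ∈ P}, ((r : ℕ) : ZMod i.1) = x i := by
    intro x
    have hpp : Set.Pairwise (↑P : Set ℕ) (Function.onFun Nat.Coprime (fun p => p)) := by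
      intro p hp q hq hpq
      exact (Nat.coprime_primes (hP p hp).1 (hP q hq).1).mpr hpq
    set k := Nat.chineseRemainderOfFinset
      (fun p => if h : p ∈ P then (x ⟨p, h⟩).val else 0) (fun p => p) P
      (fun p hp => (hP p hp).1.ne_zero) hpp with hk
    refine ⟨k.1, Nat.chineseRemainderOfFinset_lt_prod _ _ (fun p hp => (hP p hp).1.ne_zero) hpp,
      fun i => ?_⟩
    have h1 := k.2 i.1 i.2
    rw [← ZMod.natCast_eq_natCast_iff] at h1
    rw [h1, dif_pos i.2]
    exact ZMod.natCast_zmod_val _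
  choose f hf1 hf2 using hcrt
  refine ⟨R.image (fun x => ((f x : ℕ) : ℤ)), ?_, ?_, ?_⟩
  · intro r hr
    rw [Finset.mem_image] at hr
    obtain ⟨x, _, rfl⟩ := hr
    exact ⟨by positivity, by exact_mod_cast hf1 x⟩
  · rw [Finset.card_image_of_injective]
    · exact hRcard
    · intro x y hxy
      have hxy' : f x = f y := Nat.cast_injective (R := ℤ) hxy
      funext i
      rw [← hf2 x i, ← hf2 y i, hxy']
  · intro r hr s hs n hn
    rw [Finset.mem_image] at hr hs
    obtain ⟨x, hx, rfl⟩ := hr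
    obtain ⟨y, hy, rfl⟩ := hs
    by_contra hne'
    have hxy : x ≠ y := by
      rintro rfl
      exact hne' rfl
    obtain ⟨i, hi⟩ := hR x hx y hy hxy
    apply hi
    have hd : ((i.1 : ℕ) : ℤ) ∣ (quad a b c).eval n - ((f x : ℤ) - (f y : ℤ)) := by
      refine dvd_trans ?_ hn
      exact_mod_cast Finset.dvd_prod_of_mem (fun p => p) i.2
    have h0 := (ZMod.intCast_zmod_eq_zero_iff_dvd _ _).mpr hd
    push_cast at h0
    rw [hf2 x i, hf2 y i] at h0
    have h3 : x i - y i = (((quad a b c).eval n : ℤ) : ZMod i.1) := by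
      rw [sub_eq_zero] at h0
      exact h0.symm
    rw [h3, hH]
    simp only [Finset.mem_image, Finset.mem_univ, true_and]
    refine ⟨(n : ZMod i.1), ?_⟩
    unfold quad
    simp

end Vale.Agent.P042
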