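import Vale.Agent.P042.Defs

/-!
# P042, module BLOCK1 (helper21): one block of primes
-/

set_option autoImplicit false

namespace Vale.Agent.P042

namespace Block1H

open Finset

section

variable {ι : Type} [Fintype ι] [DecidableEq ι] {p : ι → ℕ} [∀ i, Fact (p i).Prime]

/-- the graph -/
def G (H : ∀ i, Finset (ZMod (p i))) : SimpleGraph (∀ i, ZMod (p i)) where
  Adj x y := x ≠ y ∧ ((∀ i, x i - y i ∈ H i) ∨ (∀ i, y i - x i ∈ H i))
  symm := ⟨fun _ _ h => ⟨h.1.symm, h.2.symm⟩⟩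
  loopless := ⟨fun _ h => h.1 rfl⟩

/-- a sign -/
def sg (n : ℕ) (b : Bool) : ZMod n := if b then 1 else -1

lemma sg_or (n : ℕ) (b : Bool) : sg n b = 1 ∨ sg n b = -1 := by
  cases b
  · right
    simp [sg]
  · left
    simp [sg]

open Classical in
lemma degree_le (H : ∀ i, Finset (ZMod (p i))) (x : ∀ i, ZMod (p i)) :
    (G H).degree x ≤ 2 * ∏ i, (H i).card := by
  have h1 : (univ.filter fun y : ∀ i, ZMod (p i) => ∀ i, x i - y i ∈ H i).card ≤
      ∏ i, (H i).card := by
    rw [← Fintype.card_piFinset]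
    refine card_le_card_of_injOn (fun y i => x i - y i) ?_ ?_
    · intro y hy
      rw [mem_coe, Fintype.mem_piFinset]
      exact (mem_filter.mp (mem_coe.mp hy)).2
    · intro y _ y' _ h
      funext i
      have := congrFun h i
      simp only at this
      exact sub_right_injective this
  have h2 : (univ.filter fun y : ∀ i, ZMod (p i) => ∀ i, y i - x i ∈ H i).card ≤
      ∏ i, (H i).card := by
    rw [← Fintype.card_piFinset]
    refine card_le_card_of_injOn (fun y i => y i - x i) ?_ ?_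
    · intro y hy
      rw [mem_coe, Fintype.mem_piFinset]
      exact (mem_filter.mp (mem_coe.mp hy)).2
    · intro y _ y' _ h
      funext i
      have := congrFun h i
      simp only at this
      exact sub_left_injective this
  rw [← SimpleGraph.card_neighborFinset_eq_degree]
  have h3 : (G H).neighborFinset x ⊆
      (univ.filter fun y : ∀ i, ZMod (p i) => ∀ i, x i - y i ∈ H i) ∪
      (univ.filter fun y : ∀ i, ZMod (p i) => ∀ i, y i - x i ∈ H i) := by
    intro y hy
    rw [SimpleGraph.mem_neighborFinset] at hy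
    rw [mem_union, mem_filter, mem_filter]
    rcases hy.2 with h | h
    · exact Or.inl ⟨mem_univ _, h⟩
    · exact Or.inr ⟨mem_univ _, h⟩
  have h4 := (card_le_card h3).trans (card_union_le _ _)
  omega

/-- local set -/
def L (H : ∀ i, Finset (ZMod (p i))) (b : Bool × Bool × Bool) (i : ι) :
    Finset (ZMod (p i) × ZMod (p i)) :=
  univ.filter fun s => sg (p i) b.1 * s.1 ∈ H i ∧ sg (p i) b.2.1 * s.2 ∈ H i ∧
    sg (p i) b.2.2 * (s.1 - s.2) ∈ H i

open Classical in
lemma tri_le (H : ∀ i, Finset (ZMod (p i))) :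
    ((univ : Finset ((∀ i, ZMod (p i)) × (∀ i, ZMod (p i)) × (∀ i, ZMod (p i)))).filter fun t =>
    (G H).Adj t.1 t.2.1 ∧ (G H).Adj t.1 t.2.2 ∧ (G H).Adj t.2.1 t.2.2).card ≤
      Fintype.card (∀ i, ZMod (p i)) * ∑ b : Bool × Bool × Bool, ∏ i, (L H b i).card := by
  have h1 : ∑ b : Bool × Bool × Bool, ∏ i, (L H b i).card =
      ∑ b : Bool × Bool × Bool, (Fintype.piFinset (L H b)).card := by
    refine sum_congr rfl fun b _ => ?_
    rw [Fintype.card_piFinset]
  rw [h1]
  have h2 : ((univ : Finset (Bool × Bool × Bool)).biUnion fun b =>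
      Fintype.piFinset (L H b)).card ≤
      ∑ b : Bool × Bool × Bool, (Fintype.piFinset (L H b)).card := card_biUnion_le
  refine le_trans ?_ (Nat.mul_le_mul_left _ h2)
  rw [← card_univ, ← card_product]
  refine card_le_card_of_injOn (fun t => (t.1, fun i => (t.1 i - t.2.1 i, t.1 i - t.2.2 i))) ?_ ?_
  · rintro ⟨x, y, z⟩ ht
    obtain ⟨-, ⟨-, hxy⟩, ⟨-, hxz⟩, ⟨-, hyz⟩⟩ := mem_filter.mp (mem_coe.mp ht)
    rw [mem_coe, mem_product]
    refine ⟨mem_univ _, ?_⟩
    rw [mem_biUnion]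
    have e1 : ∃ b, ∀ i, sg (p i) b * (x i - y i) ∈ H i := by
      rcases hxy with h | h
      · exact ⟨true, fun i => by simpa [sg] using h i⟩
      · exact ⟨false, fun i => by simpa [sg] using h i⟩
    have e2 : ∃ b, ∀ i, sg (p i) b * (x i - z i) ∈ H i := by
      rcases hxz with h | h
      · exact ⟨true, fun i => by simpa [sg] using h i⟩
      · exact ⟨false, fun i => by simpa [sg] using h i⟩
    have e3 : ∃ b, ∀ i, sg (p i) b * ((x i - y i) - (x i - z i)) ∈ H i := by
      rcases hyz with h | h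
      · refine ⟨false, fun i => ?_⟩
        have : sg (p i) false * ((x i - y i) - (x i - z i)) = y i - z i := by
          simp [sg]
        rw [this]
        exact h i
      · refine ⟨true, fun i => ?_⟩
        have : sg (p i) true * ((x i - y i) - (x i - z i)) = z i - y i := by
          simp [sg]
        rw [this]
        exact h i
    obtain ⟨b1, hb1⟩ := e1
    obtain ⟨b2, hb2⟩ := e2
    obtain ⟨b3, hb3⟩ := e3
    refine ⟨(b1, b2, b3), mem_univ _, ?_⟩
    rw [Fintype.mem_piFinset]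
    intro i
    rw [L, mem_filter]
    exact ⟨mem_univ _, hb1 i, hb2 i, hb3 i⟩
  · rintro ⟨x, y, z⟩ _ ⟨x', y', z'⟩ _ h
    simp only [Prod.mk.injEq] at h
    obtain ⟨rfl, h2⟩ := h
    have hy : y = y' := by
      funext i
      have := congrFun h2 i
      simp only [Prod.mk.injEq] at this
      exact sub_right_injective this.1
    have hz : z = z' := by
      funext i
      have := congrFun h2 i
      simp only [Prod.mk.injEq] at this
      exact sub_right_injective this.2
    rw [hy, hz]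

end

lemma cw (w : ℕ) (hw : 1 ≤ w) : (1 + 1 / (2 * (w : ℝ))) ^ w ≤ 2 := by
  have hw0 : (0 : ℝ) < w := by exact_mod_cast hw
  have h1 : 1 + 1 / (2 * (w : ℝ)) ≤ Real.exp (1 / (2 * (w : ℝ))) := by
    have := Real.add_one_le_exp (1 / (2 * (w : ℝ)))
    linarith
  have h2 : (1 + 1 / (2 * (w : ℝ))) ^ w ≤ Real.exp (1 / (2 * (w : ℝ))) ^ w :=
    pow_le_pow_left₀ (by positivity) h1 w
  refine h2.trans ?_
  rw [← Real.exp_nat_mul]
  have h3 : (w : ℝ) * (1 / (2 * (w : ℝ))) = 1 / 2 := by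
    field_simp
  rw [h3]
  have h4 : Real.exp (1 / 2) * Real.exp (1 / 2) = Real.exp 1 := by
    rw [← Real.exp_add]
    norm_num
  have h5 := Real.exp_one_lt_d9
  have h6 := Real.exp_pos (1 / 2)
  nlinarith

lemma loc (w p : ℕ) (hw : 1 ≤ w) (hp : 2304 * w ^ 2 ≤ p) :
    (p : ℝ) + 1 ≤ (1 + 1 / (2 * (w : ℝ))) * p ∧
    (p : ℝ) ^ 2 / 8 + 3 * (p : ℝ) ^ (3 / 2 : ℝ) ≤ (1 + 1 / (2 * (w : ℝ))) * ((p : ℝ) ^ 2 / 8) := by
  have hw0 : (0 : ℝ) < w := by exact_mod_cast hw
  have hw1 : (1 : ℝ) ≤ w := by exact_mod_cast hw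
  have hp' : 2304 * (w : ℝ) ^ 2 ≤ p := by exact_mod_cast hp
  have hp0 : (0 : ℝ) < p := by
    have : 0 < 2304 * (w : ℝ) ^ 2 := by positivity
    linarith
  constructor
  · have h1 : 1 ≤ 1 / (2 * (w : ℝ)) * p := by
      rw [one_div_mul_eq_div, one_le_div (by positivity)]
      nlinarith
    linarith
  · have h1 : (p : ℝ) ^ (3 / 2 : ℝ) = p * √p := by
      have : (3 / 2 : ℝ) = 1 + 1 / 2 := by norm_num
      rw [this, Real.rpow_add hp0, Real.rpow_one, Real.sqrt_eq_rpow]
    have h2 : 48 * (w : ℝ) ≤ √p := by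
      refine Real.le_sqrt_of_sq_le ?_
      have e : (48 * (w : ℝ)) ^ 2 = 2304 * (w : ℝ) ^ 2 := by ring
      rw [e]
      exact hp'
    have h3 : √p * √p = p := Real.mul_self_sqrt hp0.le
    have hs : 0 < √p := Real.sqrt_pos.mpr hp0
    rw [h1]
    have h4 : 3 * ((p : ℝ) * √p) ≤ 1 / (2 * (w : ℝ)) * ((p : ℝ) ^ 2 / 8) := by
      have h5 : 1 / (2 * (w : ℝ)) * ((p : ℝ) ^ 2 / 8) = (p : ℝ) * √p * (√p / (16 * w)) := by
        rw [pow_two]
        nth_rw 2 [← h3]
        field_simp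
        ring
      rw [h5]
      have h6 : 3 ≤ √p / (16 * w) := by
        rw [le_div_iff₀ (by positivity)]
        linarith
      have h7 : 0 < (p : ℝ) * √p := by positivity
      nlinarith
    linarith

end Block1H

open Finset in
theorem block1 (IND : S_IND) : S_BLOCK1 := by
  obtain ⟨f0, D0, hD0, hIND⟩ := IND 16 (by norm_num)
  set w : ℕ := f0 + 1 with hwdef
  have hw : 1 ≤ w := by omega
  have hfw : f0 ≤ 2 ^ w := by
    have h1 : f0 < 2 ^ f0 := Nat.lt_two_pow_self
    have h2 : 2 ^ f0 ≤ 2 ^ w := Nat.pow_le_pow_right (by norm_num) (by omega)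
    omega
  refine ⟨w, 2304 * w ^ 2 + D0 * 2 ^ w + 2 ^ w, hw, ?_⟩
  intro ι _ _ hι p _ hp H hH hloc
  classical
  set q : ℕ := ∏ i, p i with hq
  have hqV : Fintype.card (∀ i, ZMod (p i)) = q := by
    rw [Fintype.card_pi]
    simp_rw [ZMod.card]
    rfl
  obtain ⟨i0⟩ : Nonempty ι := by
    rw [← Fintype.card_pos_iff]
    omega
  have hqp : p i0 ≤ q := by
    refine Nat.le_of_dvd ?_ (Finset.dvd_prod_of_mem p (mem_univ i0))
    exact Finset.prod_pos fun i _ => (Fact.out : (p i).Prime).pos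
  have hq1 : 2304 * w ^ 2 + D0 * 2 ^ w + 2 ^ w < q := lt_of_lt_of_le (hp i0) hqp
  have hq0 : (0 : ℝ) < q := by
    have : 0 < q := by omega
    exact_mod_cast this
  set c : ℝ := 1 + 1 / (2 * (w : ℝ)) with hc
  have hw0 : (0 : ℝ) < w := by exact_mod_cast hw
  have hc0 : 0 < c := by positivity
  have hcw : c ^ w ≤ 2 := Block1H.cw w hw
  have hlp : ∀ i, (p i : ℝ) + 1 ≤ c * p i ∧
      (p i : ℝ) ^ 2 / 8 + 3 * (p i : ℝ) ^ (3 / 2 : ℝ) ≤ c * ((p i : ℝ) ^ 2 / 8) := by
    intro i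
    refine Block1H.loc w (p i) hw ?_
    have := hp i
    omega
  -- the degree
  have hdeg : (2 : ℝ) ^ w * ∏ i, ((H i).card : ℝ) ≤ 2 * q := by
    calc (2 : ℝ) ^ w * ∏ i, ((H i).card : ℝ) = ∏ i, (2 * ((H i).card : ℝ)) := by
          rw [Finset.prod_mul_distrib, Finset.prod_const, Finset.card_univ, hι]
      _ ≤ ∏ i, (c * (p i : ℝ)) := by
          refine Finset.prod_le_prod (fun i _ => by positivity) fun i _ => ?_
          refine le_trans ?_ (hlp i).1
          exact_mod_cast hH i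
      _ = c ^ w * q := by
          rw [Finset.prod_mul_distrib, Finset.prod_const, Finset.card_univ, hι, hq]
          push_cast
          rfl
      _ ≤ 2 * q := by gcongr
  have hdegN : 2 ^ w * ∏ i, (H i).card ≤ 2 * q := by exact_mod_cast hdeg
  set D : ℕ := 4 * q / 2 ^ w + 1 with hD
  have h2w : 0 < 2 ^ w := by positivity
  have hDdeg : ∀ v, (Block1H.G H).degree v ≤ D := by
    intro v
    refine (Block1H.degree_le H v).trans ?_
    have : 2 * ∏ i, (H i).card ≤ 4 * q / 2 ^ w := by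
      rw [Nat.le_div_iff_mul_le h2w]
      calc (2 * ∏ i, (H i).card) * 2 ^ w = 2 * (2 ^ w * ∏ i, (H i).card) := by ring
        _ ≤ 2 * (2 * q) := Nat.mul_le_mul_left _ hdegN
        _ = 4 * q := by ring
    omega
  have hDD0 : D0 ≤ D := by
    have : D0 ≤ 4 * q / 2 ^ w := by
      rw [Nat.le_div_iff_mul_le h2w]
      omega
    omega
  have hDlow : 4 * (q : ℝ) / 2 ^ w ≤ D := by
    rw [div_le_iff₀ (by positivity)]
    have h1 : 4 * q < (4 * q / 2 ^ w + 1) * 2 ^ w := by
      have := Nat.lt_div_mul_add (a := 4 * q) h2w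
      linarith
    have h2 : ((4 * q : ℕ) : ℝ) ≤ ((D * 2 ^ w : ℕ) : ℝ) := by
      exact_mod_cast h1.le
    push_cast at h2
    exact h2
  have hDup : (D : ℝ) ≤ 8 * q / 2 ^ w := by
    have h1 : ((4 * q / 2 ^ w : ℕ) : ℝ) ≤ 4 * q / 2 ^ w := by
      have := Nat.cast_div_le (α := ℝ) (m := 4 * q) (n := 2 ^ w)
      push_cast at this
      exact this
    have h2 : (1 : ℝ) ≤ 4 * q / 2 ^ w := by
      rw [one_le_div (by positivity)]
      have : 2 ^ w ≤ 4 * q := by omega
      exact_mod_cast this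
    have h3 : (D : ℝ) = ((4 * q / 2 ^ w : ℕ) : ℝ) + 1 := by
      rw [hD]
      push_cast
      rfl
    rw [h3]
    calc ((4 * q / 2 ^ w : ℕ) : ℝ) + 1 ≤ 4 * q / 2 ^ w + 4 * q / 2 ^ w := by linarith
      _ = _ := by ring
  -- triangles
  have htri : (((univ : Finset ((∀ i, ZMod (p i)) × (∀ i, ZMod (p i)) ×
      (∀ i, ZMod (p i)))).filter fun t =>
      (Block1H.G H).Adj t.1 t.2.1 ∧ (Block1H.G H).Adj t.1 t.2.2 ∧
        (Block1H.G H).Adj t.2.1 t.2.2).card : ℝ) ≤ q * (16 * ((q : ℝ) ^ 2 / 8 ^ w)) := by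
    have h1 := Block1H.tri_le H
    rw [hqV] at h1
    have h2 : ∀ b : Bool × Bool × Bool, (∏ i, ((Block1H.L H b i).card : ℝ)) ≤
        2 * ((q : ℝ) ^ 2 / 8 ^ w) := by
      intro b
      calc (∏ i, ((Block1H.L H b i).card : ℝ)) ≤ ∏ i, (c * ((p i : ℝ) ^ 2 / 8)) := by
            refine Finset.prod_le_prod (fun i _ => by positivity) fun i _ => ?_
            refine le_trans ?_ (hlp i).2
            exact hloc i _ _ _ (Block1H.sg_or _ b.1) (Block1H.sg_or _ b.2.1)
              (Block1H.sg_or _ b.2.2)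
        _ = c ^ w * ((q : ℝ) ^ 2 / 8 ^ w) := by
            rw [Finset.prod_mul_distrib, Finset.prod_const, Finset.card_univ, hι,
              Finset.prod_div_distrib, Finset.prod_const, Finset.card_univ, hι,
              Finset.prod_pow, hq]
            push_cast
            rfl
        _ ≤ _ := by gcongr
    calc _ ≤ ((q * ∑ b : Bool × Bool × Bool, ∏ i, (Block1H.L H b i).card : ℕ) : ℝ) := by
          exact_mod_cast h1
      _ = q * ∑ b : Bool × Bool × Bool, ∏ i, ((Block1H.L H b i).card : ℝ) := by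
          push_cast
          rfl
      _ ≤ q * ∑ _b : Bool × Bool × Bool, 2 * ((q : ℝ) ^ 2 / 8 ^ w) := by
          gcongr with b
          exact h2 b
      _ = _ := by
          have h8 : Fintype.card (Bool × Bool × Bool) = 8 := by rfl
          rw [Finset.sum_const, Finset.card_univ, h8, nsmul_eq_mul]
          push_cast
          ring
  have hf : (f0 : ℝ) * (((univ : Finset ((∀ i, ZMod (p i)) × (∀ i, ZMod (p i)) ×
      (∀ i, ZMod (p i)))).filter fun t =>
      (Block1H.G H).Adj t.1 t.2.1 ∧ (Block1H.G H).Adj t.1 t.2.2 ∧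
        (Block1H.G H).Adj t.2.1 t.2.2).card : ℝ) ≤
      Fintype.card (∀ i, ZMod (p i)) * (D : ℝ) ^ 2 := by
    rw [hqV]
    have h1 : (f0 : ℝ) ≤ 2 ^ w := by exact_mod_cast hfw
    have h48 : (2 : ℝ) ^ w * (4 ^ w) = 8 ^ w := by
      rw [← mul_pow]
      norm_num
    have h22 : (2 : ℝ) ^ w * (2 ^ w) = 4 ^ w := by
      rw [← mul_pow]
      norm_num
    calc (f0 : ℝ) * _ ≤ 2 ^ w * (q * (16 * ((q : ℝ) ^ 2 / 8 ^ w))) :=
          mul_le_mul h1 htri (by positivity) (by positivity)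
      _ = q * (4 * q / 2 ^ w) ^ 2 := by
          rw [div_pow, ← h48, pow_two ((2 : ℝ) ^ w), h22]
          field_simp
          ring
      _ ≤ q * (D : ℝ) ^ 2 := by gcongr
  obtain ⟨I, hI, hIc⟩ := hIND D hDD0 (∀ i, ZMod (p i)) (Block1H.G H) hDdeg hf
  refine ⟨I, ?_, ?_⟩
  · have hDpos : (0 : ℝ) < D := by
      have : 0 < D := by omega
      exact_mod_cast this
    rw [hqV] at hIc
    have h1 : (2 * 2 ^ w : ℝ) ≤ 16 * q / D := by
      rw [le_div_iff₀ hDpos]
      calc (2 * 2 ^ w : ℝ) * D ≤ 2 * 2 ^ w * (8 * q / 2 ^ w) := by gcongr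
        _ = 16 * q := by
          field_simp
          ring
    have h2 : (2 * 2 ^ w : ℝ) ≤ I.card := h1.trans hIc
    exact_mod_cast h2
  · intro x hx y hy hxy
    by_contra hcon
    push Not at hcon
    exact hI x hx y hy ⟨hxy, Or.inl hcon⟩

end Vale.Agent.P042
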