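import Mathlib

/-!
# P042: lower bounds for sets avoiding polynomial differences
-/

set_option autoImplicit false

namespace Vale.Agent.P042

open Polynomial

/-! ## The statement -/

/-- `A ⊆ [N]` and no difference of two elements of `A` is a nonzero value `h(n)`, `n ≥ 1` -/
def Avoids (h : ℤ[X]) (N : ℕ) (A : Finset ℤ) : Prop :=
  (∀ a ∈ A, 1 ≤ a ∧ a ≤ N) ∧ ∀ a ∈ A, ∀ b ∈ A, ∀ n : ℤ, 1 ≤ n → a - b = h.eval n → a = b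

/-- the largest size of such a set -/
noncomputable def rmax (h : ℤ[X]) (N : ℕ) : ℕ :=
  sSup {k | ∃ A : Finset ℤ, Avoids h N A ∧ A.card = k}

/-- FINALA: every polynomial of degree `k ≥ 2`. -/
def S_FINALA : Prop := ∀ h : ℤ[X], 2 ≤ h.natDegree → 0 < h.leadingCoeff →
  ∃ c : ℝ, 0 < c ∧ ∃ N0 : ℕ, ∀ N : ℕ, N0 ≤ N →
    c * (N : ℝ) ^ (1 - 1 / (h.natDegree : ℝ)) * Real.log N ≤ rmax h N

/-- FINALB: quadratic polynomials. -/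
def S_FINALB : Prop := ∀ h : ℤ[X], h.natDegree = 2 → 0 < h.leadingCoeff →
  ∃ c : ℝ, 0 < c ∧ ∃ N0 : ℕ, ∀ N : ℕ, N0 ≤ N →
    (N : ℝ) ^ (1 / 2 : ℝ) * Real.exp (c * Real.log N / Real.log (Real.log N)) ≤ rmax h N

/-! ## Modules -/

/-- SP (helper7, from P044): locally sparse graphs. -/
def S_SP : Prop := ∀ ε : ℝ, 0 < ε → ε ≤ 1 → ∃ D0 : ℕ, ∀ Δ : ℕ, D0 ≤ Δ → ∀ (V : Type) [Fintype V]
  [DecidableEq V] (G : SimpleGraph V) [DecidableRel G.Adj], (∀ v, G.degree v ≤ Δ) →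
  (∀ v, (((Finset.univ : Finset (V × V)).filter fun p =>
    G.Adj v p.1 ∧ G.Adj v p.2 ∧ G.Adj p.1 p.2).card : ℝ) ≤ (Δ : ℝ) ^ (2 - ε)) →
  ∀ k : ℕ, 1152 / ε ^ 2 * Δ / Real.log Δ ≤ k → G.Colorable k

/-- GROW: `h(n)` grows like `n^k`. -/
def S_GROW : Prop := ∀ h : ℤ[X], 1 ≤ h.natDegree → 0 < h.leadingCoeff →
  ∃ C : ℝ, 1 ≤ C ∧ ∀ N : ℕ, 1 ≤ N → ∀ n : ℤ, 1 ≤ n → |h.eval n| ≤ N →
    (n : ℝ) ≤ C * (N : ℝ) ^ (1 / (h.natDegree : ℝ))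

/-- DIV: divisor bound. -/
def S_DIV : Prop := ∀ ε : ℝ, 0 < ε → ∃ C : ℝ, 0 < C ∧ ∀ n : ℕ, 1 ≤ n →
  (n.divisors.card : ℝ) ≤ C * (n : ℝ) ^ ε

open Classical in
/-- solutions of `± h(x) ± h(y) ± h(z) = 0` with `0 < |h| ≤ N` -/
noncomputable def Sol (h : ℤ[X]) (N : ℕ) (X : ℕ) : Finset (ℤ × ℤ × ℤ) :=
  ((Finset.Icc (1 : ℤ) X) ×ˢ (Finset.Icc (1 : ℤ) X) ×ˢ (Finset.Icc (1 : ℤ) X)).filter fun t =>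
    h.eval t.1 ≠ 0 ∧ h.eval t.2.1 ≠ 0 ∧ h.eval t.2.2 ≠ 0 ∧ |h.eval t.1| ≤ N ∧
    |h.eval t.2.1| ≤ N ∧ |h.eval t.2.2| ≤ N ∧
    ∃ σ τ υ : ℤ, (σ = 1 ∨ σ = -1) ∧ (τ = 1 ∨ τ = -1) ∧ (υ = 1 ∨ υ = -1) ∧
      σ * h.eval t.1 + τ * h.eval t.2.1 + υ * h.eval t.2.2 = 0

/-- TRI: few solutions. deps: S_DIV -> S_TRI.
If all three signs agree, one of the values is negative, so that variable lies in a fixed finite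
set, and one more variable determines the third up to `k` choices. Otherwise
`h(u) - h(v) = ± h(w) ≠ 0` for some order: `u - v` divides `h(w)`, and for `e = u - v ≠ 0` the
polynomial `h(Y+e) - h(Y)` has degree `k - 1 ≥ 1`. -/
def S_TRI : Prop := ∀ h : ℤ[X], 2 ≤ h.natDegree → 0 < h.leadingCoeff → ∀ ε : ℝ, 0 < ε →
  ∃ C : ℝ, 0 < C ∧ ∀ N X : ℕ, 1 ≤ N → 1 ≤ X →
    ((Sol h N X).card : ℝ) ≤ C * X * (N : ℝ) ^ ε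

/-- SAMP: a random colour class. -/
def S_SAMP : Prop := ∀ (V : Type) [Fintype V] [DecidableEq V] (E : Finset (V × V))
  (T : Finset (V × V × V)), (∀ e ∈ E, e.1 ≠ e.2) →
  (∀ t ∈ T, t.1 ≠ t.2.1 ∧ t.1 ≠ t.2.2 ∧ t.2.1 ≠ t.2.2) → ∀ M : ℕ, 1 ≤ M → ∀ a b : ℝ,
  ∃ W : Finset V, (Fintype.card V : ℝ) / M - a * E.card / (M : ℝ) ^ 2 - b * T.card / (M : ℝ) ^ 3 ≤
    W.card - a * (E.filter fun e => e.1 ∈ W ∧ e.2 ∈ W).card -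
      b * (T.filter fun t => t.1 ∈ W ∧ t.2.1 ∈ W ∧ t.2.2 ∈ W).card

/-- IND: independent sets in graphs with few triangles. deps: S_SP -> S_SAMP -> S_IND.
`M = ⌈D/m⌉`, `f0 ≥ 12 m^2`, `a = 1/(4m)`, `b = 3`; delete from `W` the vertices of degree `> 16 m`
and those in a triangle; S_SP with `ε = 1`, `Δ = 16 m`. -/
def S_IND : Prop := ∀ K : ℝ, 0 < K → ∃ f0 D0 : ℕ, 1 ≤ D0 ∧ ∀ D : ℕ, D0 ≤ D → ∀ (V : Type)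
  [Fintype V] [DecidableEq V] (G : SimpleGraph V) [DecidableRel G.Adj], (∀ v, G.degree v ≤ D) →
  (f0 : ℝ) * ((Finset.univ : Finset (V × V × V)).filter fun t =>
    G.Adj t.1 t.2.1 ∧ G.Adj t.1 t.2.2 ∧ G.Adj t.2.1 t.2.2).card ≤ Fintype.card V * (D : ℝ) ^ 2 →
  ∃ I : Finset V, (∀ x ∈ I, ∀ y ∈ I, ¬ G.Adj x y) ∧ K * Fintype.card V / D ≤ I.card

/-- LOCP: the values of a quadratic polynomial mod `p`. -/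
def S_LOCP : Prop := ∀ (p : ℕ) [Fact p.Prime], p ≠ 2 → ∀ a b c : ZMod p, a ≠ 0 →
  ∀ H : Finset (ZMod p), H = Finset.univ.image (fun x : ZMod p => a * x ^ 2 + b * x + c) →
  2 * H.card ≤ p + 1 ∧ ∀ σ τ υ : ZMod p, (σ = 1 ∨ σ = -1) → (τ = 1 ∨ τ = -1) →
    (υ = 1 ∨ υ = -1) → (((Finset.univ : Finset (ZMod p × ZMod p)).filter fun s =>
      σ * s.1 ∈ H ∧ τ * s.2 ∈ H ∧ υ * (s.1 - s.2) ∈ H).card : ℝ) ≤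
        (p : ℝ) ^ 2 / 8 + 3 * (p : ℝ) ^ (3 / 2 : ℝ)

/-- BLOCK1: deps S_IND -> S_BLOCK1. Cayley graph of `∏ ZMod (p i)` with connection set
`S = (∏ H i ∪ -∏ H i) \ {0}`: `|S| ≤ 2 ∏ (p i + 1)/2`, triangles `≤ q * 8 ∏ (p_i^2/8 + 3 p_i^(3/2))`.
Take `K = 16`, `D = ⌈2^(2-w) q⌉`, `2^w ≥ 16 f0`, `p0` large given `w`. -/
def S_BLOCK1 : Prop := ∃ w p0 : ℕ, 1 ≤ w ∧ ∀ (ι : Type) [Fintype ι] [DecidableEq ι],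
  Fintype.card ι = w → ∀ (p : ι → ℕ) [∀ i, Fact (p i).Prime], (∀ i, p0 < p i) →
  ∀ H : ∀ i, Finset (ZMod (p i)), (∀ i, 2 * (H i).card ≤ p i + 1) →
  (∀ i, ∀ σ τ υ : ZMod (p i), (σ = 1 ∨ σ = -1) → (τ = 1 ∨ τ = -1) →
    (υ = 1 ∨ υ = -1) → (((Finset.univ : Finset (ZMod (p i) × ZMod (p i))).filter fun s =>
      σ * s.1 ∈ H i ∧ τ * s.2 ∈ H i ∧ υ * (s.1 - s.2) ∈ H i).card : ℝ) ≤
        (p i : ℝ) ^ 2 / 8 + 3 * (p i : ℝ) ^ (3 / 2 : ℝ)) →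
  ∃ R : Finset (∀ i, ZMod (p i)), 2 * 2 ^ w ≤ R.card ∧
    ∀ x ∈ R, ∀ y ∈ R, x ≠ y → ∃ i, x i - y i ∉ H i

/-- `R ⊆ [0,q)` of size `≥ m` whose nonzero differences are not values of `h` mod `q` -/
def Good (h : ℤ[X]) (q m : ℕ) : Prop := ∃ R : Finset ℤ, (∀ r ∈ R, 0 ≤ r ∧ r < q) ∧ m ≤ R.card ∧
  ∀ r ∈ R, ∀ s ∈ R, ∀ n : ℤ, (q : ℤ) ∣ h.eval n - (r - s) → r = s

/-- the quadratic polynomial `a X^2 + b X + c` -/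
noncomputable def quad (a b c : ℤ) : ℤ[X] := C a * X ^ 2 + C b * X + C c

/-- BLOCK: deps S_LOCP -> S_BLOCK1 -> S_BLOCK (Chinese remainder). -/
def S_BLOCK : Prop := ∃ w p0 : ℕ, 1 ≤ w ∧ ∀ a b c : ℤ, ∀ P : Finset ℕ, P.card = w →
  (∀ p ∈ P, p.Prime ∧ p0 < p ∧ ¬ (p : ℤ) ∣ a) → Good (quad a b c) (∏ p ∈ P, p) (2 * 2 ^ w)

/-- PRODG: Chinese remainder. -/
def S_PRODG : Prop := ∀ (h : ℤ[X]) (q1 m1 q2 m2 : ℕ), 1 ≤ q1 → 1 ≤ q2 → q1.Coprime q2 →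
  Good h q1 m1 → Good h q2 m2 → Good h (q1 * q2) (m1 * m2)

/-- BIGGOOD: deps S_BLOCK -> S_PRODG -> S_BIGGOOD (induction on `B`). -/
def S_BIGGOOD : Prop := ∃ w p0 : ℕ, 1 ≤ w ∧ ∀ a b c : ℤ, ∀ (B : ℕ) (P : Finset ℕ),
  P.card = w * B → (∀ p ∈ P, p.Prime ∧ p0 < p ∧ ¬ (p : ℤ) ∣ a) →
  Good (quad a b c) (∏ p ∈ P, p) (2 ^ B * 2 ^ (w * B))

/-- ROOT: roots modulo a product of primes. -/
def S_ROOT : Prop := ∀ (a b c : ℤ) (P : Finset ℕ), (∀ p ∈ P, p.Prime ∧ ¬ (p : ℤ) ∣ a) →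
  ∀ Y : ℕ, ((Finset.Icc (1 : ℤ) Y).filter fun n =>
    ((∏ p ∈ P, p : ℕ) : ℤ) ∣ (quad a b c).eval n).card ≤ 2 ^ P.card * (Y / (∏ p ∈ P, p) + 1)

/-- GREEDY -/
def S_GREEDY : Prop := ∀ (M : ℕ) (F : Finset ℤ), ∃ A : Finset ℤ, (∀ a ∈ A, 0 ≤ a ∧ a < M) ∧
  (∀ a ∈ A, ∀ b ∈ A, a - b ∈ F → a = b) ∧ M ≤ A.card * (2 * F.card + 1)

/-- COUNT: deps S_GREEDY -> S_ROOT -> S_GROW -> S_COUNT. `A = {1 + r + q a'}`. -/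
def S_COUNT : Prop := ∀ a b c : ℤ, 0 < a → ∃ κ : ℝ, 0 < κ ∧ ∃ N0 : ℕ, ∀ N : ℕ, N0 ≤ N →
  ∀ (P : Finset ℕ) (m : ℕ), (∀ p ∈ P, p.Prime ∧ ¬ (p : ℤ) ∣ a) → (∏ p ∈ P, p) ^ 2 ≤ N →
  Good (quad a b c) (∏ p ∈ P, p) m →
  κ * (N : ℝ) ^ (1 / 2 : ℝ) * m / 2 ^ P.card ≤ rmax (quad a b c) N

/-- PRIM: enough primes (Mathlib: `Chebyshev.pi_ge`, `primorial_le_4_pow`). -/
def S_PRIM : Prop := ∀ (w p0 a : ℕ), 1 ≤ w → 1 ≤ a → ∃ c : ℝ, 0 < c ∧ ∃ N0 : ℕ, ∀ N : ℕ, N0 ≤ N →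
  ∃ (B : ℕ) (P : Finset ℕ), P.card = w * B ∧ (∀ p ∈ P, p.Prime ∧ p0 < p ∧ ¬ p ∣ a) ∧
    (∏ p ∈ P, p) ^ 2 ≤ N ∧ c * Real.log N / Real.log (Real.log N) ≤ B

end Vale.Agent.P042
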