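import Mathlib
import Vale.Agent.P042.Defs

/-!
# P042, module COUNT
-/

set_option autoImplicit false

namespace Vale.Agent.P042

open Polynomial

namespace COUNT

theorem quad_eval (a b c n : ℤ) : (quad a b c).eval n = a * n ^ 2 + b * n + c := by
  simp [quad]

theorem quad_natDegree (a b c : ℤ) (ha : a ≠ 0) : (quad a b c).natDegree = 2 :=
  natDegree_quadratic ha

theorem quad_lc (a b c : ℤ) (ha : a ≠ 0) : (quad a b c).leadingCoeff = a :=
  leadingCoeff_quadratic ha

theorem le_rmax (h : ℤ[X]) (N : ℕ) (A : Finset ℤ) (hA : Avoids h N A) : A.card ≤ rmax h N := by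
  unfold rmax
  apply le_csSup
  · refine ⟨N, ?_⟩
    rintro k ⟨B, hB, rfl⟩
    have h1 : B ⊆ Finset.Icc (1 : ℤ) N := by
      intro x hx
      rw [Finset.mem_Icc]
      exact hB.1 x hx
    have h2 := Finset.card_le_card h1
    rw [Int.card_Icc] at h2
    omega
  · exact ⟨A, hA, rfl⟩

end COUNT

open COUNT in
theorem count : S_GREEDY → S_ROOT → S_GROW → S_COUNT := by
  classical
  intro hGREEDY hROOT hGROW a b c ha
  have ha0 : a ≠ 0 := ha.ne'
  obtain ⟨C, hC1, hC⟩ := hGROW (quad a b c) (by rw [quad_natDegree a b c ha0]; norm_num)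
    (by rw [quad_lc a b c ha0]; exact ha)
  rw [quad_natDegree a b c ha0] at hC
  refine ⟨1 / (6 * (C + 1)), by positivity, 1, ?_⟩
  intro N hN P m hP hq hgood
  set h := quad a b c with hh
  set q : ℕ := ∏ p ∈ P, p with hqdef
  have hq1 : 1 ≤ q := Finset.prod_pos fun p hp => (hP p hp).1.pos
  have hqN : q ≤ N / q := by
    rw [Nat.le_div_iff_mul_le hq1]
    calc q * q = q ^ 2 := by ring
      _ ≤ N := hq
  set M : ℕ := N / q with hM
  have hM1 : 1 ≤ M := le_trans hq1 hqN
  have hqM : q * M ≤ N := Nat.mul_div_le N q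
  let Y : ℕ := ⌊C * (N : ℝ) ^ (1 / 2 : ℝ)⌋₊
  let F : Finset ℤ := ((Finset.Icc (1 : ℤ) Y).filter fun n => (q : ℤ) ∣ h.eval n).image
    fun n => h.eval n / q
  have hF : F.card ≤ 2 ^ P.card * (Y / q + 1) :=
    Finset.card_image_le.trans (hROOT a b c P hP Y)
  obtain ⟨A', hA'1, hA'2, hA'3⟩ := hGREEDY M F
  obtain ⟨R, hR1, hR2, hR3⟩ := hgood
  let f : ℤ × ℤ → ℤ := fun x => 1 + x.1 + q * x.2
  let A : Finset ℤ := (R ×ˢ A').image f
  have hqZ : (1 : ℤ) ≤ q := by exact_mod_cast hq1
  have hfinj : Set.InjOn f (R ×ˢ A' : Finset (ℤ × ℤ)) := by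
    rintro ⟨r, x⟩ hr ⟨s, y⟩ hs hxy
    rw [Finset.mem_coe, Finset.mem_product] at hr hs
    obtain ⟨h1, h2⟩ := hR1 r hr.1
    obtain ⟨h3, h4⟩ := hR1 s hs.1
    simp only [f] at hxy
    have h5 : r - s = q * (y - x) := by linarith
    have h6 : r = s := by
      have h7 : (q : ℤ) ∣ r - s := ⟨y - x, h5⟩
      have h8 : |r - s| < q := by rw [abs_lt]; constructor <;> linarith
      have := Int.eq_zero_of_abs_lt_dvd h7 h8
      linarith
    have h7 : x = y := by
      rw [h6, sub_self] at h5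
      have : y - x = 0 := by
        rcases mul_eq_zero.mp h5.symm with h | h
        · omega
        · exact h
      linarith
    rw [h6, h7]
  have hcardA : A.card = R.card * A'.card := by
    rw [Finset.card_image_of_injOn hfinj, Finset.card_product]
  have hAv : Avoids h N A := by
    constructor
    · intro x hx
      obtain ⟨⟨r, y⟩, hry, rfl⟩ := Finset.mem_image.mp hx
      rw [Finset.mem_product] at hry
      obtain ⟨h1, h2⟩ := hR1 r hry.1
      obtain ⟨h3, h4⟩ := hA'1 y hry.2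
      have h5 : (q : ℤ) * y ≤ q * (M - 1) := by
        apply mul_le_mul_of_nonneg_left _ (by linarith)
        linarith
      have h6 : (0 : ℤ) ≤ q * y := mul_nonneg (by linarith) h3
      have h7 : ((q * M : ℕ) : ℤ) ≤ N := by exact_mod_cast hqM
      push_cast at h7
      simp only [f]
      constructor
      · linarith
      · linarith
    · intro x hx y hy n hn hxy
      obtain ⟨⟨r, u⟩, hru, rfl⟩ := Finset.mem_image.mp hx
      obtain ⟨⟨s, v⟩, hsv, rfl⟩ := Finset.mem_image.mp hy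
      rw [Finset.mem_product] at hru hsv
      simp only [f] at hxy ⊢
      have hrs : r = s := by
        apply hR3 r hru.1 s hsv.1 n
        rw [← hxy]
        exact ⟨u - v, by ring⟩
      have h1 : (q : ℤ) * (u - v) = h.eval n := by
        rw [← hxy, hrs]; ring
      obtain ⟨h2, h3⟩ := hA'1 u hru.2
      obtain ⟨h4, h5⟩ := hA'1 v hsv.2
      have h6 : |h.eval n| ≤ N := by
        rw [← h1, abs_mul, abs_of_nonneg (by linarith : (0 : ℤ) ≤ q)]
        have h7 : |u - v| ≤ M := by rw [abs_le]; constructor <;> linarith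
        have h8 : ((q * M : ℕ) : ℤ) ≤ N := by exact_mod_cast hqM
        push_cast at h8
        exact (mul_le_mul_of_nonneg_left h7 (by linarith)).trans h8
      have h7 : (n : ℝ) ≤ C * (N : ℝ) ^ (1 / 2 : ℝ) := by
        have := hC N hN n hn (by exact_mod_cast h6)
        simpa using this
      have h8 : n ≤ Y := by
        obtain ⟨k, rfl⟩ := Int.eq_ofNat_of_zero_le (by linarith : (0 : ℤ) ≤ n)
        have : k ≤ Y := Nat.le_floor (by exact_mod_cast h7)
        exact_mod_cast this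
      have h9 : u - v ∈ F := by
        rw [Finset.mem_image]
        refine ⟨n, ?_, ?_⟩
        · rw [Finset.mem_filter, Finset.mem_Icc]
          exact ⟨⟨hn, h8⟩, ⟨u - v, h1.symm⟩⟩
        · rw [← h1, Int.mul_ediv_cancel_left _ (by omega)]
      have h10 := hA'2 u hru.2 v hsv.2 h9
      rw [hrs, h10]
  have hfin := le_rmax h N A hAv
  rw [hcardA] at hfin
  -- the estimate
  have hNpos : (0 : ℝ) < N := by exact_mod_cast hN
  set sN : ℝ := (N : ℝ) ^ (1 / 2 : ℝ) with hsN
  have hsNpos : 0 < sN := by positivity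
  have hsq : sN * sN = N := by
    rw [hsN, ← Real.rpow_add hNpos]; norm_num
  have hqR : (1 : ℝ) ≤ q := by exact_mod_cast hq1
  have hqs : (q : ℝ) ≤ sN := by
    have h1 : (q : ℝ) ^ 2 ≤ N := by exact_mod_cast hq
    nlinarith
  have hMR : (N : ℝ) ≤ 2 * q * M := by
    have h1 : N < q * (M + 1) := by
      have := Nat.lt_mul_div_succ N hq1
      exact this
    have h2 : (N : ℝ) < q * (M + 1) := by exact_mod_cast h1
    have h3 : (1 : ℝ) ≤ M := by exact_mod_cast hM1
    nlinarith
  have hYq : ((Y / q + 1 : ℕ) : ℝ) * q ≤ (C + 1) * sN := by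
    have h1 : ((Y / q : ℕ) : ℝ) * q ≤ Y := by exact_mod_cast Nat.div_mul_le_self Y q
    have h2 : (Y : ℝ) ≤ C * sN := Nat.floor_le (by positivity)
    push_cast
    nlinarith
  have hw : (1 : ℝ) ≤ 2 ^ P.card := one_le_pow₀ (by norm_num)
  have hFR : (2 * (F.card : ℝ) + 1) ≤ 3 * (2 ^ P.card * ((Y / q + 1 : ℕ) : ℝ)) := by
    have h1 : (F.card : ℝ) ≤ 2 ^ P.card * ((Y / q + 1 : ℕ) : ℝ) := by exact_mod_cast hF
    have h2 : (1 : ℝ) ≤ ((Y / q + 1 : ℕ) : ℝ) := by
      push_cast
      have : (0 : ℝ) ≤ ((Y / q : ℕ) : ℝ) := by positivity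
      linarith
    nlinarith
  have hA3 : (M : ℝ) ≤ A'.card * (2 * (F.card : ℝ) + 1) := by exact_mod_cast hA'3
  have hmR : (m : ℝ) ≤ R.card := by exact_mod_cast hR2
  have hfinR : (R.card : ℝ) * A'.card ≤ rmax h N := by exact_mod_cast hfin
  have hA'0 : (0 : ℝ) ≤ A'.card := by positivity
  -- N <= 2 q M <= 2 q A' 3 2^P (Y/q+1) <= 6 A' 2^P (C+1) sN
  have hkey : (N : ℝ) ≤ 6 * A'.card * 2 ^ P.card * ((C + 1) * sN) := by
    calc (N : ℝ) ≤ 2 * q * M := hMR
      _ ≤ 2 * q * (A'.card * (3 * (2 ^ P.card * ((Y / q + 1 : ℕ) : ℝ)))) := by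
          apply mul_le_mul_of_nonneg_left _ (by positivity)
          exact hA3.trans (mul_le_mul_of_nonneg_left hFR hA'0)
      _ = 6 * A'.card * 2 ^ P.card * (((Y / q + 1 : ℕ) : ℝ) * q) := by ring
      _ ≤ 6 * A'.card * 2 ^ P.card * ((C + 1) * sN) := by
          apply mul_le_mul_of_nonneg_left hYq (by positivity)
  have hkey2 : sN ≤ 6 * A'.card * 2 ^ P.card * (C + 1) := by
    rw [← hsq] at hkey
    have : sN * sN ≤ (6 * A'.card * 2 ^ P.card * (C + 1)) * sN := by
      calc sN * sN ≤ _ := hkey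
        _ = _ := by ring
    exact le_of_mul_le_mul_right this hsNpos
  refine le_trans ?_ hfinR
  rw [div_le_iff₀ (by positivity), div_mul_eq_mul_div, div_mul_eq_mul_div,
    div_le_iff₀ (by positivity), one_mul]
  calc sN * m ≤ (6 * A'.card * 2 ^ P.card * (C + 1)) * R.card := by
        apply mul_le_mul hkey2 hmR (by positivity) (by positivity)
    _ = R.card * A'.card * 2 ^ P.card * (6 * (C + 1)) := by ring

end Vale.Agent.P042
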