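import Vale.Agent.P042.Defs

/-!
# P042, module DIV (helper21): the divisor bound
-/

set_option autoImplicit false

namespace Vale.Agent.P042

namespace DivH

lemma small (ε : ℝ) (hε : 0 < ε) (p a : ℕ) (hp : 2 ≤ p) :
    (a + 1 : ℝ) ≤ (1 + 1 / (ε * Real.log 2)) * ((p : ℝ) ^ a) ^ ε := by
  have hl : 0 < Real.log 2 := Real.log_pos (by norm_num)
  have h1 : ((2 : ℝ) ^ a) ^ ε ≤ ((p : ℝ) ^ a) ^ ε := by
    have : (2 : ℝ) ≤ p := by exact_mod_cast hp
    refine Real.rpow_le_rpow (by positivity) (pow_le_pow_left₀ (by norm_num) this a) hε.le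
  have h2 : 1 + a * (ε * Real.log 2) ≤ ((2 : ℝ) ^ a) ^ ε := by
    rw [Real.rpow_def_of_pos (by positivity), Real.log_pow]
    have := Real.add_one_le_exp ((a : ℝ) * Real.log 2 * ε)
    calc 1 + a * (ε * Real.log 2) = (a : ℝ) * Real.log 2 * ε + 1 := by ring
      _ ≤ _ := this
  have h3 : 0 < ε * Real.log 2 := by positivity
  have h4 : (0 : ℝ) ≤ a := by positivity
  calc (a + 1 : ℝ) = 1 / (ε * Real.log 2) * (a * (ε * Real.log 2)) + 1 := by
        field_simp
    _ ≤ (1 + 1 / (ε * Real.log 2)) * (1 + a * (ε * Real.log 2)) := by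
        have h5 : 0 ≤ 1 / (ε * Real.log 2) := by positivity
        have h6 : 0 ≤ (a : ℝ) * (ε * Real.log 2) := by positivity
        nlinarith
    _ ≤ (1 + 1 / (ε * Real.log 2)) * ((p : ℝ) ^ a) ^ ε := by
        refine mul_le_mul_of_nonneg_left (h2.trans h1) (by positivity)

end DivH

theorem div : S_DIV := by
  intro ε hε
  obtain ⟨B, hB⟩ : ∃ B : ℕ, ∀ p : ℕ, B ≤ p → (2 : ℝ) ≤ (p : ℝ) ^ ε := by
    have h := ((tendsto_rpow_atTop hε).comp tendsto_natCast_atTop_atTop).eventually_ge_atTop
      (2 : ℝ)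
    obtain ⟨B, hB⟩ := Filter.eventually_atTop.mp h
    exact ⟨B, fun p hp => hB p hp⟩
  set C1 : ℝ := 1 + 1 / (ε * Real.log 2) with hC1
  have hl : 0 < Real.log 2 := Real.log_pos (by norm_num)
  have hC1' : 1 ≤ C1 := by
    rw [hC1]
    have : 0 ≤ 1 / (ε * Real.log 2) := by positivity
    linarith
  refine ⟨C1 ^ B, by positivity, fun n hn => ?_⟩
  have hn0 : n ≠ 0 := by omega
  rw [Nat.card_divisors hn0]
  push_cast
  have h1 : ∀ p ∈ n.primeFactors, ((n.factorization p : ℝ) + 1) ≤
      (if p < B then C1 else 1) * ((p : ℝ) ^ (n.factorization p)) ^ ε := by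
    intro p hp
    have hp2 : 2 ≤ p := (Nat.prime_of_mem_primeFactors hp).two_le
    split_ifs with h
    · exact DivH.small ε hε p _ hp2
    · rw [one_mul]
      have h2 := hB p (by omega)
      have h3 : ((p : ℝ) ^ (n.factorization p)) ^ ε = ((p : ℝ) ^ ε) ^ (n.factorization p) := by
        rw [← Real.rpow_natCast, ← Real.rpow_mul (by positivity), mul_comm, Real.rpow_mul
          (by positivity), Real.rpow_natCast]
      rw [h3]
      calc ((n.factorization p : ℝ) + 1) ≤ 2 ^ (n.factorization p) := by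
            have : n.factorization p + 1 ≤ 2 ^ (n.factorization p) := Nat.lt_two_pow_self
            exact_mod_cast this
        _ ≤ _ := by gcongr
  have h2 : ∏ p ∈ n.primeFactors, (if p < B then C1 else (1 : ℝ)) ≤ C1 ^ B := by
    rw [← Finset.prod_filter, Finset.prod_const]
    refine pow_le_pow_right₀ hC1' ?_
    calc (n.primeFactors.filter fun p => p < B).card ≤ (Finset.range B).card := by
          refine Finset.card_le_card fun p hp => ?_
          rw [Finset.mem_range]
          exact (Finset.mem_filter.mp hp).2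
      _ = B := Finset.card_range B
  have h3 : ∏ p ∈ n.primeFactors, ((p : ℝ) ^ (n.factorization p)) ^ ε = (n : ℝ) ^ ε := by
    rw [Real.finsetProd_rpow _ _ fun p _ => by positivity]
    congr 1
    have := Nat.prod_factorization_pow_eq_self hn0
    conv_rhs => rw [← this]
    rw [Finsupp.prod, Nat.support_factorization]
    push_cast
    rfl
  calc ∏ p ∈ n.primeFactors, ((n.factorization p : ℝ) + 1)
      ≤ ∏ p ∈ n.primeFactors, ((if p < B then C1 else 1) *
          ((p : ℝ) ^ (n.factorization p)) ^ ε) :=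
        Finset.prod_le_prod (fun p _ => by positivity) h1
    _ = (∏ p ∈ n.primeFactors, (if p < B then C1 else (1 : ℝ))) * (n : ℝ) ^ ε := by
        rw [Finset.prod_mul_distrib, h3]
    _ ≤ C1 ^ B * (n : ℝ) ^ ε := by gcongr

end Vale.Agent.P042
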