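import Vale.Agent.P042.Defs

/-!
# P042: assembly of the bound for all polynomials
-/

set_option autoImplicit false

namespace Vale.Agent.P042

open Polynomial Filter

namespace FA

theorem le_rmax {h : ℤ[X]} {N : ℕ} {A : Finset ℤ} (hA : Avoids h N A) : A.card ≤ rmax h N := by
  refine le_csSup ⟨N, ?_⟩ ⟨A, hA, rfl⟩
  rintro k ⟨B, hB, rfl⟩
  have h1 : B ⊆ Finset.Icc (1 : ℤ) N := fun b hb => Finset.mem_Icc.mpr (hB.1 b hb)
  have h2 := Finset.card_le_card h1
  simpa using h2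

/-- the difference graph -/
def Gr (h : ℤ[X]) (N : ℕ) : SimpleGraph (Fin N) where
  Adj x y := x ≠ y ∧ ∃ n : ℤ, 1 ≤ n ∧ ∃ σ : ℤ, (σ = 1 ∨ σ = -1) ∧ (x : ℤ) - y = σ * h.eval n
  symm := ⟨by
    rintro x y ⟨h1, n, hn, σ, hσ, h2⟩
    refine ⟨h1.symm, n, hn, -σ, ?_, ?_⟩
    · rcases hσ with rfl | rfl
      · right; rfl
      · left; rfl
    · linarith⟩
  loopless := ⟨fun x h => h.1 rfl⟩

theorem abs_le {h : ℤ[X]} {N : ℕ} {x y : Fin N} {n σ : ℤ} (hσ : σ = 1 ∨ σ = -1)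
    (he : (x : ℤ) - y = σ * h.eval n) : |h.eval n| ≤ N := by
  have h1 : |h.eval n| = |(x : ℤ) - y| := by
    rw [he, abs_mul]
    rcases hσ with rfl | rfl <;> simp
  rw [h1, _root_.abs_le]
  have := x.2
  have := y.2
  constructor <;> omega

/-- degrees -/
theorem deg_le (h : ℤ[X]) (N X : ℕ) [DecidableRel (Gr h N).Adj]
    (hX : ∀ n : ℤ, 1 ≤ n → |h.eval n| ≤ N → n ≤ X) (v : Fin N) :
    (Gr h N).degree v ≤ 2 * X := by
  classical
  have h1 : ((Gr h N).neighborFinset v).image (fun y : Fin N => (y : ℤ)) ⊆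
      (Finset.Icc (1 : ℤ) X).image (fun n => (v : ℤ) - h.eval n) ∪
      (Finset.Icc (1 : ℤ) X).image (fun n => (v : ℤ) + h.eval n) := by
    intro z hz
    obtain ⟨y, hy, rfl⟩ := Finset.mem_image.mp hz
    rw [SimpleGraph.mem_neighborFinset] at hy
    obtain ⟨-, n, hn, σ, hσ, he⟩ := hy
    have hle := hX n hn (abs_le hσ he)
    rw [Finset.mem_union]
    rcases hσ with rfl | rfl
    · left
      exact Finset.mem_image.mpr ⟨n, Finset.mem_Icc.mpr ⟨hn, hle⟩, by linarith⟩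
    · right
      exact Finset.mem_image.mpr ⟨n, Finset.mem_Icc.mpr ⟨hn, hle⟩, by linarith⟩
  have h2 : (((Gr h N).neighborFinset v).image (fun y : Fin N => (y : ℤ))).card =
      (Gr h N).degree v := by
    rw [Finset.card_image_of_injective, SimpleGraph.card_neighborFinset_eq_degree]
    intro a b hab
    have hab : ((a : ℕ) : ℤ) = ((b : ℕ) : ℤ) := hab
    exact Fin.ext (by exact_mod_cast hab)
  rw [← h2]
  calc _ ≤ _ := Finset.card_le_card h1
    _ ≤ _ := Finset.card_union_le _ _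
    _ ≤ (Finset.Icc (1 : ℤ) X).card + (Finset.Icc (1 : ℤ) X).card :=
        Nat.add_le_add Finset.card_image_le Finset.card_image_le
    _ = 2 * X := by simp; ring

/-- triangles -/
theorem tri_le (h : ℤ[X]) (N X : ℕ) [DecidableRel (Gr h N).Adj]
    (hX : ∀ n : ℤ, 1 ≤ n → |h.eval n| ≤ N → n ≤ X) (v : Fin N) :
    ((Finset.univ : Finset (Fin N × Fin N)).filter fun p =>
      (Gr h N).Adj v p.1 ∧ (Gr h N).Adj v p.2 ∧ (Gr h N).Adj p.1 p.2).card ≤
      (Sol h N X).card * 4 := by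
  classical
  set F := (Finset.univ : Finset (Fin N × Fin N)).filter fun p =>
      (Gr h N).Adj v p.1 ∧ (Gr h N).Adj v p.2 ∧ (Gr h N).Adj p.1 p.2 with hF
  have key : ∀ p : Fin N × Fin N, p ∈ F → ∃ u : (ℤ × ℤ × ℤ) × (ℤ × ℤ),
      u ∈ (Sol h N X) ×ˢ (({1, -1} : Finset ℤ) ×ˢ ({1, -1} : Finset ℤ)) ∧
      (p.1 : ℤ) = v - u.2.1 * h.eval u.1.1 ∧ (p.2 : ℤ) = v - u.2.2 * h.eval u.1.2.1 := by
    intro p hp
    rw [hF, Finset.mem_filter] at hp
    obtain ⟨-, ⟨h1, n1, hn1, σ1, hσ1, e1⟩, ⟨h2, n2, hn2, σ2, hσ2, e2⟩,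
      ⟨h3, n3, hn3, σ3, hσ3, e3⟩⟩ := hp
    have hz : ∀ {x y : Fin N} {n σ : ℤ}, x ≠ y → (x : ℤ) - y = σ * h.eval n →
        h.eval n ≠ 0 := by
      intro x y n σ hxy he h0
      rw [h0, mul_zero] at he
      apply hxy
      apply Fin.ext
      have : ((x : ℕ) : ℤ) = ((y : ℕ) : ℤ) := by linarith
      exact_mod_cast this
    refine ⟨((n1, n2, n3), (σ1, σ2)), ?_, ?_, ?_⟩
    · rw [Finset.mem_product]
      constructor
      · rw [Sol, Finset.mem_filter]
        refine ⟨?_, hz h1 e1, hz h2 e2, hz h3 e3, abs_le hσ1 e1, abs_le hσ2 e2, abs_le hσ3 e3,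
          -σ1, σ2, -σ3, ?_, hσ2, ?_, ?_⟩
        · simp only [Finset.mem_product, Finset.mem_Icc]
          exact ⟨⟨hn1, hX n1 hn1 (abs_le hσ1 e1)⟩, ⟨hn2, hX n2 hn2 (abs_le hσ2 e2)⟩,
            ⟨hn3, hX n3 hn3 (abs_le hσ3 e3)⟩⟩
        · rcases hσ1 with rfl | rfl
          · right; rfl
          · left; rfl
        · rcases hσ3 with rfl | rfl
          · right; rfl
          · left; rfl
        · show -σ1 * h.eval n1 + σ2 * h.eval n2 + -σ3 * h.eval n3 = 0
          linarith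
      · simp only [Finset.mem_product, Finset.mem_insert, Finset.mem_singleton]
        exact ⟨hσ1, hσ2⟩
    · show (p.1 : ℤ) = v - σ1 * h.eval n1
      linarith
    · show (p.2 : ℤ) = v - σ2 * h.eval n2
      linarith
  choose! f hf using key
  have h4 : ((Sol h N X) ×ˢ (({1, -1} : Finset ℤ) ×ˢ ({1, -1} : Finset ℤ))).card =
      (Sol h N X).card * 4 := by
    rw [Finset.card_product, Finset.card_product]
    rfl
  rw [← h4]
  refine Finset.card_le_card_of_injOn f (fun p hp => (hf p hp).1) ?_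
  intro p hp q hq hpq
  have a1 := (hf p hp).2
  have a2 := (hf q hq).2
  have hpq : f p = f q := hpq
  rw [hpq] at a1
  have b1 : ((p.1 : ℕ) : ℤ) = ((q.1 : ℕ) : ℤ) := by rw [a1.1, a2.1]
  have b2 : ((p.2 : ℕ) : ℤ) = ((q.2 : ℕ) : ℤ) := by rw [a1.2, a2.2]
  exact Prod.ext (Fin.ext (by exact_mod_cast b1)) (Fin.ext (by exact_mod_cast b2))

/-- a colour class -/
theorem colour (h : ℤ[X]) (N K : ℕ) (hK : 1 ≤ K) (hcol : (Gr h N).Colorable K) :
    (N : ℝ) / K ≤ rmax h N := by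
  classical
  obtain ⟨C⟩ := hcol
  haveI : Nonempty (Fin K) := ⟨⟨0, hK⟩⟩
  have h1 : ∃ c : Fin K, (N : ℝ) / K ≤
      ((Finset.univ.filter fun v : Fin N => C v = c).card : ℝ) := by
    by_contra hcon
    push Not at hcon
    have h2 : ∑ c : Fin K, ((Finset.univ.filter fun v : Fin N => C v = c).card : ℝ) <
        ∑ _c : Fin K, (N : ℝ) / K :=
      Finset.sum_lt_sum_of_nonempty Finset.univ_nonempty fun c _ => hcon c
    have h3 : ∑ c : Fin K, (Finset.univ.filter fun v : Fin N => C v = c).card = N := by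
      rw [← Finset.card_eq_sum_card_fiberwise (f := fun v => C v) (t := Finset.univ)]
      · simp
      · intro v _; exact Finset.mem_coe.mpr (Finset.mem_univ _)
    have h4 : ∑ c : Fin K, ((Finset.univ.filter fun v : Fin N => C v = c).card : ℝ) = N := by
      exact_mod_cast h3
    rw [h4, Finset.sum_const, Finset.card_univ, Fintype.card_fin, nsmul_eq_mul] at h2
    have hK0 : (0 : ℝ) < K := by exact_mod_cast hK
    have h5 : (K : ℝ) * (N / K) = N := by field_simp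
    linarith
  obtain ⟨c, hc⟩ := h1
  refine hc.trans ?_
  set I := Finset.univ.filter fun v : Fin N => C v = c with hI
  have h6 : (I.image fun v : Fin N => (v : ℤ) + 1).card = I.card := by
    apply Finset.card_image_of_injective
    intro a b hab
    have hab : ((a : ℕ) : ℤ) + 1 = ((b : ℕ) : ℤ) + 1 := hab
    exact Fin.ext (by exact_mod_cast (by linarith : ((a : ℕ) : ℤ) = ((b : ℕ) : ℤ)))
  rw [← h6]
  have h7 : Avoids h N (I.image fun v : Fin N => (v : ℤ) + 1) := by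
    constructor
    · intro a ha
      obtain ⟨v, -, rfl⟩ := Finset.mem_image.mp ha
      have := v.2
      constructor <;> omega
    · intro a ha b hb n hn he
      obtain ⟨v, hv, rfl⟩ := Finset.mem_image.mp ha
      obtain ⟨w, hw, rfl⟩ := Finset.mem_image.mp hb
      by_contra hne
      have hvw : v ≠ w := fun hh => hne (by rw [hh])
      have hadj : (Gr h N).Adj v w := ⟨hvw, n, hn, 1, Or.inl rfl, by linarith⟩
      rw [hI, Finset.mem_filter] at hv hw
      exact C.valid hadj (hv.2.trans hw.2.symm)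
  exact_mod_cast le_rmax h7

end FA

open FA in
/-- FINALA -/
theorem finala (hSP : S_SP) (hGR : S_GROW) (hTRI : S_TRI) : S_FINALA := by
  classical
  intro h hk hlc
  obtain ⟨k, hkk⟩ : ∃ k : ℕ, k = h.natDegree := ⟨_, rfl⟩
  have hk2 : 2 ≤ k := by rw [hkk]; exact hk
  have hk0 : (0 : ℝ) < k := by
    have : (2 : ℝ) ≤ k := by exact_mod_cast hk2
    linarith
  obtain ⟨C, hC1, hGR⟩ := hGR h (by omega) hlc
  obtain ⟨C2, hC2, hTRI⟩ := hTRI h hk hlc (1 / (4 * k)) (by positivity)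
  obtain ⟨D0, hSP⟩ := hSP (1 / 2) (by norm_num) (by norm_num)
  rw [← hkk] at hGR ⊢
  have hC0 : 0 < C := by linarith
  refine ⟨1 / (18432 * C * k), by positivity, ?_⟩
  -- eventual conditions
  have ht : Tendsto (fun N : ℕ => (N : ℝ) ^ (1 / (4 * k) : ℝ)) atTop atTop :=
    (tendsto_rpow_atTop (by positivity)).comp tendsto_natCast_atTop_atTop
  have ev1 := ht.eventually_ge_atTop (2 * C2)
  have ev2 := ht.eventually_ge_atTop (D0 : ℝ)
  have ev3 := ht.eventually_ge_atTop (3 : ℝ)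
  obtain ⟨N0, hN0⟩ := eventually_atTop.mp (ev1.and (ev2.and ev3))
  refine ⟨max N0 1, fun N hN => ?_⟩
  obtain ⟨h1, h2, h3⟩ := hN0 N (le_trans (le_max_left _ _) hN)
  have hN1 : 1 ≤ N := le_trans (le_max_right _ _) hN
  have hNpos : (0 : ℝ) < N := by exact_mod_cast hN1
  obtain ⟨u, hu⟩ : ∃ u : ℝ, u = (N : ℝ) ^ (1 / (4 * k) : ℝ) := ⟨_, rfl⟩
  rw [← hu] at h1 h2 h3
  have hu0 : 0 < u := by linarith
  have huk : (N : ℝ) ^ (1 / (k : ℝ)) = u ^ 4 := by
    rw [hu, ← Real.rpow_natCast, ← Real.rpow_mul hNpos.le]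
    congr 1
    push_cast
    field_simp
  -- the number of relevant `n`
  obtain ⟨X, hXd⟩ : ∃ X : ℕ, X = ⌊C * (N : ℝ) ^ (1 / (k : ℝ))⌋₊ := ⟨_, rfl⟩
  have hX : ∀ n : ℤ, 1 ≤ n → |h.eval n| ≤ N → n ≤ X := by
    intro n hn hle
    have h4 := hGR N hN1 n hn hle
    have h5 : ((n.toNat : ℕ) : ℤ) = n := Int.toNat_of_nonneg (by omega)
    have h6 : ((n.toNat : ℕ) : ℝ) = (n : ℝ) := by exact_mod_cast h5
    have h7 : n.toNat ≤ X := by
      rw [hXd]
      apply Nat.le_floor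
      rw [h6]; exact h4
    omega
  have hXle : (X : ℝ) ≤ C * u ^ 4 := by
    rw [hXd, ← huk]
    exact Nat.floor_le (by positivity)
  have hu4 : 81 ≤ u ^ 4 := by
    have := pow_le_pow_left₀ (by norm_num : (0 : ℝ) ≤ 3) h3 4
    norm_num at this
    exact this
  have hXge : u ^ 4 / 2 ≤ X := by
    have h4 : C * u ^ 4 < X + 1 := by
      rw [hXd, ← huk]
      exact Nat.lt_floor_add_one _
    nlinarith
  have hX1 : 1 ≤ X := by
    have : (1 : ℝ) ≤ X := by linarith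
    exact_mod_cast this
  have hΔ : D0 ≤ 2 * X := by
    have h4 : (D0 : ℝ) ≤ ((2 * X : ℕ) : ℝ) := by
      push_cast
      have h5 : u ≤ u ^ 4 := by nlinarith [mul_pos hu0 hu0, mul_pos (mul_pos hu0 hu0) hu0]
      linarith
    exact_mod_cast h4
  have hΔr : (((2 * X : ℕ) : ℕ) : ℝ) = 2 * (X : ℝ) := by push_cast; ring
  have hΔge : u ^ 4 ≤ 2 * (X : ℝ) := by linarith
  have htri : ∀ v, (((Finset.univ : Finset (Fin N × Fin N)).filter fun p =>
      (Gr h N).Adj v p.1 ∧ (Gr h N).Adj v p.2 ∧ (Gr h N).Adj p.1 p.2).card : ℝ) ≤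
      ((2 * X : ℕ) : ℝ) ^ (2 - 1 / 2 : ℝ) := by
    intro v
    have h4 : (((Finset.univ : Finset (Fin N × Fin N)).filter fun p =>
      (Gr h N).Adj v p.1 ∧ (Gr h N).Adj v p.2 ∧ (Gr h N).Adj p.1 p.2).card : ℝ) ≤
      (Sol h N X).card * 4 := by exact_mod_cast tri_le h N X hX v
    have h5 := hTRI N X hN1 hX1
    rw [← hu] at h5
    rw [hΔr]
    have h6 : (2 * (X : ℝ)) ^ (2 - 1 / 2 : ℝ) = (2 * (X : ℝ)) * Real.sqrt (2 * (X : ℝ)) := by
      rw [Real.sqrt_eq_rpow, ← Real.rpow_one_add' (by positivity) (by norm_num)]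
      norm_num
    have h7 : u ^ 2 ≤ Real.sqrt (2 * (X : ℝ)) := by
      apply Real.le_sqrt_of_sq_le
      calc (u ^ 2) ^ 2 = u ^ 4 := by ring
        _ ≤ _ := hΔge
    rw [h6]
    have hXr : (0 : ℝ) ≤ X := Nat.cast_nonneg _
    calc _ ≤ ((Sol h N X).card : ℝ) * 4 := h4
      _ ≤ (C2 * X * u) * 4 := by linarith
      _ ≤ (2 * (X : ℝ)) * u ^ 2 := by
          have : C2 * 2 ≤ u := by linarith
          nlinarith [mul_nonneg hXr hu0.le]
      _ ≤ _ := mul_le_mul_of_nonneg_left h7 (by positivity)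
  -- the colouring
  have hlogΔ : 0 < Real.log ((2 * X : ℕ) : ℝ) := Real.log_pos (by rw [hΔr]; linarith)
  obtain ⟨K, hK⟩ : ∃ K : ℕ, K = ⌈1152 / (1 / 2 : ℝ) ^ 2 * ((2 * X : ℕ) : ℝ) /
    Real.log ((2 * X : ℕ) : ℝ)⌉₊ := ⟨_, rfl⟩
  have hcol : (Gr h N).Colorable K := by
    refine hSP (2 * X) hΔ (Fin N) (Gr h N) (fun v => deg_le h N X hX v) htri K ?_
    rw [hK]
    exact Nat.le_ceil _
  have hratio : 1 ≤ ((2 * X : ℕ) : ℝ) / Real.log ((2 * X : ℕ) : ℝ) := by
    rw [le_div_iff₀ hlogΔ, one_mul]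
    exact (Real.log_le_sub_one_of_pos (by rw [hΔr]; linarith)).trans (by linarith)
  have hK2 : (K : ℝ) ≤ 9216 * (((2 * X : ℕ) : ℝ) / Real.log ((2 * X : ℕ) : ℝ)) := by
    have h4 : (K : ℝ) < 1152 / (1 / 2 : ℝ) ^ 2 * ((2 * X : ℕ) : ℝ) /
        Real.log ((2 * X : ℕ) : ℝ) + 1 := by
      rw [hK]
      exact Nat.ceil_lt_add_one (by positivity)
    have h5 : 1152 / (1 / 2 : ℝ) ^ 2 * ((2 * X : ℕ) : ℝ) / Real.log ((2 * X : ℕ) : ℝ) =
        4608 * (((2 * X : ℕ) : ℝ) / Real.log ((2 * X : ℕ) : ℝ)) := by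
      rw [mul_div_assoc]; norm_num
    rw [h5] at h4
    linarith
  have hK1 : 1 ≤ K := by
    rw [hK]
    apply Nat.one_le_ceil_iff.mpr
    have : 0 < ((2 * X : ℕ) : ℝ) := by rw [hΔr]; linarith
    positivity
  refine le_trans ?_ (colour h N K hK1 hcol)
  -- numerics
  have hlog : Real.log N / k ≤ Real.log ((2 * X : ℕ) : ℝ) := by
    have h4 : Real.log ((N : ℝ) ^ (1 / (k : ℝ))) ≤ Real.log ((2 * X : ℕ) : ℝ) := by
      apply Real.log_le_log (by positivity)
      rw [huk, hΔr]; exact hΔge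
    rw [Real.log_rpow hNpos] at h4
    calc Real.log N / k = 1 / k * Real.log N := by ring
      _ ≤ _ := h4
  have hlogN : 0 ≤ Real.log N := Real.log_natCast_nonneg N
  have hKpos : (0 : ℝ) < K := by exact_mod_cast hK1
  have e1 : (N : ℝ) ^ (1 - 1 / (k : ℝ)) = N / u ^ 4 := by
    rw [Real.rpow_sub hNpos, Real.rpow_one, huk]
  rw [e1, le_div_iff₀ hKpos]
  have h8 : (K : ℝ) ≤ 9216 * (2 * (C * u ^ 4) / (Real.log N / k)) ∨ Real.log N = 0 := by
    rcases hlogN.lt_or_eq with h9 | h9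
    · left
      refine hK2.trans ?_
      refine mul_le_mul_of_nonneg_left ?_ (by norm_num)
      rw [hΔr]
      rw [hΔr] at hlog
      exact div_le_div₀ (by positivity) (by linarith) (by positivity) hlog
    · right; exact h9.symm
  rcases h8 with h8 | h8
  · rcases hlogN.lt_or_eq with h9 | h9
    · calc 1 / (18432 * C * k) * (N / u ^ 4) * Real.log N * K ≤
            1 / (18432 * C * k) * (N / u ^ 4) * Real.log N *
              (9216 * (2 * (C * u ^ 4) / (Real.log N / k))) :=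
            mul_le_mul_of_nonneg_left h8 (by positivity)
        _ = N := by
            field_simp
            norm_num
    · rw [← h9]; simp
  · rw [h8]; simp

end Vale.Agent.P042
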