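import Vale.Agent.P042.Defs

/-!
# P042: assembly of the bound for quadratic polynomials
-/

set_option autoImplicit false

namespace Vale.Agent.P042

open Polynomial Filter

/-- FINALB -/
theorem finalb (hBG : S_BIGGOOD) (hCO : S_COUNT) (hPR : S_PRIM) : S_FINALB := by
  intro h hdeg hlc
  obtain ⟨w, p0, hw, hBG⟩ := hBG
  -- coefficients
  have hq : h = quad (h.coeff 2) (h.coeff 1) (h.coeff 0) := by
    have h1 := h.as_sum_range_C_mul_X_pow
    rw [hdeg] at h1
    rw [quad]
    conv_lhs => rw [h1]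
    simp only [Finset.sum_range_succ, Finset.sum_range_zero, zero_add, pow_zero, mul_one, pow_one]
    ring
  obtain ⟨a, ha⟩ : ∃ a, a = h.coeff 2 := ⟨_, rfl⟩
  obtain ⟨b, hb⟩ : ∃ b, b = h.coeff 1 := ⟨_, rfl⟩
  obtain ⟨c, hc⟩ : ∃ c, c = h.coeff 0 := ⟨_, rfl⟩
  rw [← ha, ← hb, ← hc] at hq
  have ha0 : 0 < a := by
    rw [ha]
    have : h.leadingCoeff = h.coeff 2 := by rw [Polynomial.leadingCoeff, hdeg]
    rw [← this]; exact hlc
  obtain ⟨κ, hκ, N1, hCO⟩ := hCO a b c ha0
  obtain ⟨c1, hc1, N2, hPR⟩ := hPR w p0 a.toNat hw (by omega)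
  -- the exponential beats the constant
  have hlim : ∀ᶠ N : ℕ in atTop, Real.exp (c1 / 2 * Real.log N / Real.log (Real.log N)) ≤
      κ * 2 ^ (c1 * Real.log N / Real.log (Real.log N)) := by
    have h2 : Tendsto (fun N : ℕ => Real.log N) atTop atTop :=
      Real.tendsto_log_atTop.comp tendsto_natCast_atTop_atTop
    have h3 : Tendsto (fun x : ℝ => x / Real.log x) atTop atTop := by
      have h4 : Tendsto (fun x : ℝ => Real.log x / x) atTop (nhdsWithin 0 (Set.Ioi 0)) := by
        rw [tendsto_nhdsWithin_iff]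
        refine ⟨?_, ?_⟩
        · have := Real.isLittleO_log_id_atTop.tendsto_div_nhds_zero
          simpa using this
        · filter_upwards [eventually_gt_atTop 1] with x hx
          exact div_pos (Real.log_pos hx) (by linarith)
      have h5 := h4.inv_tendsto_nhdsGT_zero
      refine h5.congr fun x => ?_
      simp [inv_div]
    have h6 := h3.comp h2
    have hl2 : (0.69 : ℝ) < Real.log 2 := by
      have := Real.log_two_gt_d9; linarith
    have h7 : ∀ᶠ N : ℕ in atTop, -Real.log κ / (0.19 * c1) ≤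
        Real.log N / Real.log (Real.log N) :=
      h6.eventually_ge_atTop _
    filter_upwards [h7, h6.eventually_ge_atTop 0] with N hN ht0
    obtain ⟨t, ht⟩ : ∃ t : ℝ, t = Real.log N / Real.log (Real.log N) := ⟨_, rfl⟩
    rw [mul_div_assoc, mul_div_assoc, ← ht]
    have ht0 : 0 ≤ t := by rw [ht]; exact ht0
    rw [← ht] at hN
    rw [div_le_iff₀ (by positivity)] at hN
    have e1 : κ * 2 ^ (c1 * t) = Real.exp (Real.log κ + Real.log 2 * (c1 * t)) := by
      rw [Real.exp_add, Real.exp_log hκ, Real.rpow_def_of_pos (by norm_num)]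
    rw [e1, Real.exp_le_exp]
    have h8 : 0.19 * (c1 * t) ≤ (Real.log 2 - 0.5) * (c1 * t) :=
      mul_le_mul_of_nonneg_right (by linarith) (by positivity)
    nlinarith
  obtain ⟨N3, hN3⟩ := eventually_atTop.mp hlim
  refine ⟨c1 / 2, by positivity, max (max N1 N2) N3, fun N hN => ?_⟩
  have hN1 : N1 ≤ N := le_trans (le_trans (le_max_left _ _) (le_max_left _ _)) hN
  have hN2 : N2 ≤ N := le_trans (le_trans (le_max_right _ _) (le_max_left _ _)) hN
  have hN3' : N3 ≤ N := le_trans (le_max_right _ _) hN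
  obtain ⟨B, P, hP, hPp, hPN, hB⟩ := hPR N hN2
  have hnd : ∀ p ∈ P, ¬ (p : ℤ) ∣ a := fun p hp hd => by
    have h9 := (hPp p hp).2.2
    apply h9
    have : ((a.toNat : ℕ) : ℤ) = a := Int.toNat_of_nonneg ha0.le
    rw [← this] at hd
    exact_mod_cast hd
  have hg := hBG a b c B P hP fun p hp => ⟨(hPp p hp).1, (hPp p hp).2.1, hnd p hp⟩
  have h10 := hCO N hN1 P (2 ^ B * 2 ^ (w * B)) (fun p hp => ⟨(hPp p hp).1, hnd p hp⟩) hPN hg
  rw [hq]
  refine le_trans ?_ h10
  have h11 := hN3 N hN3'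
  have e2 : κ * (N : ℝ) ^ (1 / 2 : ℝ) * ((2 ^ B * 2 ^ (w * B) : ℕ) : ℝ) / 2 ^ P.card =
      (N : ℝ) ^ (1 / 2 : ℝ) * (κ * 2 ^ B) := by
    rw [hP]
    push_cast
    field_simp
  rw [e2]
  refine mul_le_mul_of_nonneg_left ?_ (by positivity)
  refine h11.trans ?_
  refine mul_le_mul_of_nonneg_left ?_ hκ.le
  rw [← Real.rpow_natCast]
  exact Real.rpow_le_rpow_of_exponent_le (by norm_num) hB

end Vale.Agent.P042
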