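import Vale.Agent.P042.Defs

/-! P042, GREEDY: a maximal set without forbidden differences. -/

set_option autoImplicit false

namespace Vale.Agent.P042

theorem greedy : S_GREEDY := by
  intro M F
  classical
  let S : Finset (Finset ℤ) := (Finset.Ico (0 : ℤ) M).powerset.filter
    (fun A => ∀ a ∈ A, ∀ b ∈ A, a - b ∈ F → a = b)
  have hS : S.Nonempty := ⟨∅, by simp [S]⟩
  obtain ⟨A, hA, hmax⟩ := Finset.exists_max_image S Finset.card hS
  rw [Finset.mem_filter, Finset.mem_powerset] at hA
  obtain ⟨hA1, hA2⟩ := hA
  refine ⟨A, fun a ha => Finset.mem_Ico.1 (hA1 ha), hA2, ?_⟩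
  have hcov : Finset.Ico (0 : ℤ) M ⊆ A.biUnion
      (fun a => insert a (F.image (fun f => a + f) ∪ F.image (fun f => a - f))) := by
    intro x hx
    rw [Finset.mem_biUnion]
    by_cases hxA : x ∈ A
    · exact ⟨x, hxA, Finset.mem_insert_self _ _⟩
    · by_contra hcon
      push Not at hcon
      have hins : insert x A ∈ S := by
        rw [Finset.mem_filter, Finset.mem_powerset]
        refine ⟨Finset.insert_subset hx hA1, ?_⟩
        intro a ha b hb hab
        rcases Finset.mem_insert.1 ha with ha' | ha' <;> rcases Finset.mem_insert.1 hb with hb' | hb'
        · rw [ha', hb']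
        · exfalso
          apply hcon b hb'
          rw [Finset.mem_insert, Finset.mem_union]
          right; left
          exact Finset.mem_image.2 ⟨a - b, hab, by rw [← ha']; ring⟩
        · exfalso
          apply hcon a ha'
          rw [Finset.mem_insert, Finset.mem_union]
          right; right
          exact Finset.mem_image.2 ⟨a - b, hab, by rw [← hb']; ring⟩
        · exact hA2 a ha' b hb' hab
      have := hmax _ hins
      rw [Finset.card_insert_of_notMem hxA] at this
      omega
  have h1 := Finset.card_le_card hcov
  rw [Int.card_Ico] at h1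
  have h2 := Finset.card_biUnion_le_card_mul A
    (fun a => insert a (F.image (fun f => a + f) ∪ F.image (fun f => a - f))) (2 * F.card + 1)
    (by
      intro a _
      have h3 : (F.image (fun f => a + f)).card ≤ F.card := Finset.card_image_le
      have h4 : (F.image (fun f => a - f)).card ≤ F.card := Finset.card_image_le
      have h5 := Finset.card_union_le (F.image (fun f => a + f)) (F.image (fun f => a - f))
      have h6 := Finset.card_insert_le a (F.image (fun f => a + f) ∪ F.image (fun f => a - f))
      omega)
  have h7 : ((M : ℤ) - 0).toNat = M := by simp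
  omega

end Vale.Agent.P042
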