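import Vale.Agent.P042.Defs

/-!
# P042: growth of polynomials
-/

set_option autoImplicit false

namespace Vale.Agent.P042

open Polynomial Filter Asymptotics

/-- GROW -/
theorem grow : S_GROW := by
  intro h hk hlc
  obtain ⟨k, hkk⟩ : ∃ k : ℕ, k = h.natDegree := ⟨_, rfl⟩
  rw [← hkk] at hk ⊢
  set P : ℝ[X] := h.map (Int.castRingHom ℝ) with hP
  have hinj : Function.Injective (Int.castRingHom ℝ) := Int.cast_injective
  have hdeg : P.natDegree = k := by rw [hP, natDegree_map_eq_of_injective hinj, hkk]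
  have hlcP : P.leadingCoeff = (h.leadingCoeff : ℝ) := by
    rw [hP, leadingCoeff_map_of_injective hinj]; rfl
  have hlc0 : (0 : ℝ) < P.leadingCoeff := by rw [hlcP]; exact_mod_cast hlc
  have h1 : (fun x : ℝ => eval x P) ~[atTop] fun x => P.leadingCoeff * x ^ P.natDegree :=
    P.isEquivalent_atTop_lead
  have h2 : (fun x : ℝ => P.leadingCoeff * x ^ P.natDegree) =O[atTop] fun x => eval x P :=
    h1.symm.isBigO
  obtain ⟨c, hc⟩ := h2.bound
  obtain ⟨x0, hx0⟩ := eventually_atTop.mp hc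
  obtain ⟨c', hc'⟩ : ∃ c' : ℝ, c' = max c 1 / P.leadingCoeff := ⟨_, rfl⟩
  have hc'0 : 0 < c' := by rw [hc']; positivity
  refine ⟨max 1 (max x0 (c' ^ (1 / (k : ℝ)))), le_max_left _ _, ?_⟩
  intro N hN n hn hle
  have hN0 : (0 : ℝ) < N := by exact_mod_cast hN
  have hN1 : (1 : ℝ) ≤ (N : ℝ) ^ (1 / (k : ℝ)) :=
    Real.one_le_rpow (by exact_mod_cast hN) (by positivity)
  have hk0 : (0 : ℝ) < k := by exact_mod_cast hk
  rcases le_or_gt x0 (n : ℝ) with hx | hx
  · have h3 := hx0 n hx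
    have hn0 : (0 : ℝ) < n := by exact_mod_cast (by omega : 0 < n)
    have e1 : eval (n : ℝ) P = ((h.eval n : ℤ) : ℝ) := by
      rw [hP, eval_map, eval₂_eq_eval_map]
      exact (eval_intCast_map (Int.castRingHom ℝ) h n)
    rw [e1, hdeg, Real.norm_of_nonneg (by positivity), Real.norm_eq_abs] at h3
    have h4 : |((h.eval n : ℤ) : ℝ)| ≤ N := by exact_mod_cast hle
    have h5 : (n : ℝ) ^ k ≤ c' * N := by
      rw [hc', div_mul_eq_mul_div, le_div_iff₀ hlc0]
      calc (n : ℝ) ^ k * P.leadingCoeff = P.leadingCoeff * (n : ℝ) ^ k := by ring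
        _ ≤ c * |((h.eval n : ℤ) : ℝ)| := h3
        _ ≤ max c 1 * |((h.eval n : ℤ) : ℝ)| :=
            mul_le_mul_of_nonneg_right (le_max_left _ _) (abs_nonneg _)
        _ ≤ max c 1 * N := mul_le_mul_of_nonneg_left h4 (by positivity)
    have h6 : (n : ℝ) ≤ (c' * N) ^ (1 / (k : ℝ)) := by
      have h7 : ((n : ℝ) ^ k) ^ (1 / (k : ℝ)) ≤ (c' * N) ^ (1 / (k : ℝ)) :=
        Real.rpow_le_rpow (by positivity) h5 (by positivity)
      rwa [← Real.rpow_natCast, ← Real.rpow_mul hn0.le, mul_one_div, div_self hk0.ne',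
        Real.rpow_one] at h7
    rw [Real.mul_rpow hc'0.le hN0.le] at h6
    refine h6.trans (mul_le_mul_of_nonneg_right ?_ (by positivity))
    exact (le_max_right _ _).trans (le_max_right _ _)
  · calc (n : ℝ) ≤ x0 := hx.le
      _ ≤ max 1 (max x0 (c' ^ (1 / (k : ℝ)))) := (le_max_left _ _).trans (le_max_right _ _)
      _ = max 1 (max x0 (c' ^ (1 / (k : ℝ)))) * 1 := (mul_one _).symm
      _ ≤ _ := mul_le_mul_of_nonneg_left hN1 (by positivity)

end Vale.Agent.P042
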