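import Vale.Agent.P042.Defs

/-!
# P042: independent sets in graphs with few triangles
-/

set_option autoImplicit false

namespace Vale.Agent.P042

open Finset

namespace IndX

variable {V : Type} [Fintype V] [DecidableEq V]

/-- Cleaning: from `W` with few edges and few triangles to a triangle-free set of bounded degree. -/
theorem clean (G : SimpleGraph V) [DecidableRel G.Adj] (m : ℕ) (hm : 1 ≤ m) (W : Finset V)
    (he : (((Finset.univ : Finset (V × V)).filter fun e => G.Adj e.1 e.2).filter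
      fun e => e.1 ∈ W ∧ e.2 ∈ W).card ≤ 4 * m * W.card)
    (ht : 3 * (((Finset.univ : Finset (V × V × V)).filter fun t =>
      G.Adj t.1 t.2.1 ∧ G.Adj t.1 t.2.2 ∧ G.Adj t.2.1 t.2.2).filter
      fun t => t.1 ∈ W ∧ t.2.1 ∈ W ∧ t.2.2 ∈ W).card ≤ W.card) :
    ∃ U : Finset V, U ⊆ W ∧ W.card ≤ 3 * U.card ∧
      (∀ v ∈ U, (U.filter fun y => G.Adj v y).card ≤ 16 * m) ∧
      ∀ x ∈ U, ∀ y ∈ U, ∀ z ∈ U, G.Adj x y → G.Adj x z → G.Adj y z → False := by
  -- high degree vertices
  set B1 := W.filter fun v => 16 * m < (W.filter fun y => G.Adj v y).card with hB1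
  set B2 := (((Finset.univ : Finset (V × V × V)).filter fun t =>
      G.Adj t.1 t.2.1 ∧ G.Adj t.1 t.2.2 ∧ G.Adj t.2.1 t.2.2).filter
      fun t => t.1 ∈ W ∧ t.2.1 ∈ W ∧ t.2.2 ∈ W).image (fun t => t.1) with hB2
  have hsum : (((Finset.univ : Finset (V × V)).filter fun e => G.Adj e.1 e.2).filter
      fun e => e.1 ∈ W ∧ e.2 ∈ W).card = ∑ v ∈ W, (W.filter fun y => G.Adj v y).card := by
    have e1 : (((Finset.univ : Finset (V × V)).filter fun e => G.Adj e.1 e.2).filter
      fun e => e.1 ∈ W ∧ e.2 ∈ W) = (W.sigma fun v => W.filter fun y => G.Adj v y).map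
        ⟨fun s => (s.1, s.2), fun a b hab => by
          obtain ⟨a1, a2⟩ := a
          obtain ⟨b1, b2⟩ := b
          simp only [Prod.mk.injEq] at hab
          obtain ⟨h1, h2⟩ := hab
          subst h1; subst h2; rfl⟩ := by
      ext ⟨x, y⟩
      simp only [Finset.mem_filter, Finset.mem_univ, true_and, Finset.mem_map,
        Finset.mem_sigma, Sigma.exists]
      constructor
      · rintro ⟨h1, h2, h3⟩
        exact ⟨x, y, ⟨h2, h3, h1⟩, rfl⟩
      · rintro ⟨a, b, ⟨h1, h2, h3⟩, hab⟩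
        have hab : (a, b) = (x, y) := hab
        obtain ⟨rfl, rfl⟩ := Prod.mk.inj hab
        exact ⟨h3, h1, h2⟩
    rw [e1, Finset.card_map, Finset.card_sigma]
  have h1 : 16 * m * B1.card ≤ 4 * m * W.card := by
    refine le_trans ?_ he
    rw [hsum]
    calc 16 * m * B1.card = ∑ _v ∈ B1, 16 * m := by
          rw [Finset.sum_const, smul_eq_mul]; ring
      _ ≤ ∑ v ∈ B1, (W.filter fun y => G.Adj v y).card :=
          Finset.sum_le_sum fun v hv => (Finset.mem_filter.mp hv).2.le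
      _ ≤ ∑ v ∈ W, (W.filter fun y => G.Adj v y).card :=
          Finset.sum_le_sum_of_subset (Finset.filter_subset _ _)
  have h2 : 4 * B1.card ≤ W.card := by
    have : 4 * m * (4 * B1.card) ≤ 4 * m * W.card := by
      calc 4 * m * (4 * B1.card) = 16 * m * B1.card := by ring
        _ ≤ _ := h1
    exact Nat.le_of_mul_le_mul_left this (by omega)
  have h3 : 3 * B2.card ≤ W.card := le_trans (Nat.mul_le_mul_left 3 Finset.card_image_le) ht
  refine ⟨W \ (B1 ∪ B2), Finset.sdiff_subset, ?_, ?_, ?_⟩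
  · have h4 : W.card ≤ (W \ (B1 ∪ B2)).card + (B1 ∪ B2).card := by
      exact Finset.card_le_card_sdiff_add_card (s := W) (t := B1 ∪ B2)
    have h5 : (B1 ∪ B2).card ≤ B1.card + B2.card := Finset.card_union_le _ _
    omega
  · intro v hv
    rw [Finset.mem_sdiff, Finset.mem_union, not_or] at hv
    have h6 : ¬ 16 * m < (W.filter fun y => G.Adj v y).card := fun h =>
      hv.2.1 (Finset.mem_filter.mpr ⟨hv.1, h⟩)
    push Not at h6
    refine le_trans (Finset.card_le_card ?_) h6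
    exact Finset.filter_subset_filter _ Finset.sdiff_subset
  · intro x hx y hy z hz hxy hxz hyz
    rw [Finset.mem_sdiff, Finset.mem_union, not_or] at hx
    apply hx.2.2
    rw [hB2, Finset.mem_image]
    refine ⟨(x, y, z), ?_, rfl⟩
    rw [Finset.mem_filter, Finset.mem_filter]
    exact ⟨⟨Finset.mem_univ _, hxy, hxz, hyz⟩, hx.1, Finset.sdiff_subset hy,
      Finset.sdiff_subset hz⟩

/-- an independent set in a set `U` whose induced graph is `k`-colourable -/
theorem pigeon (G : SimpleGraph V) (U : Finset V) (k : ℕ) (hk : 1 ≤ k)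
    (hcol : (G.induce (U : Set V)).Colorable k) :
    ∃ I : Finset V, (∀ x ∈ I, ∀ y ∈ I, ¬ G.Adj x y) ∧ U.card ≤ k * I.card := by
  classical
  obtain ⟨C⟩ := hcol
  let f : V → Fin k := fun v => if hv : v ∈ (U : Set V) then C ⟨v, hv⟩ else ⟨0, hk⟩
  have h1 : ∃ c : Fin k, U.card ≤ k * (U.filter fun v => f v = c).card := by
    by_contra hcon
    push Not at hcon
    have h2 : U.card = ∑ c : Fin k, (U.filter fun v => f v = c).card :=
      Finset.card_eq_sum_card_fiberwise fun v _ => Finset.mem_coe.mpr (Finset.mem_univ _)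
    haveI : Nonempty (Fin k) := ⟨⟨0, hk⟩⟩
    have h3 : ∑ c : Fin k, k * (U.filter fun v => f v = c).card < ∑ _c : Fin k, U.card :=
      Finset.sum_lt_sum_of_nonempty Finset.univ_nonempty fun c _ => hcon c
    rw [← Finset.mul_sum, ← h2, Finset.sum_const, Finset.card_univ, Fintype.card_fin,
      smul_eq_mul] at h3
    exact lt_irrefl _ h3
  obtain ⟨c, hc⟩ := h1
  refine ⟨U.filter fun v => f v = c, ?_, hc⟩
  intro x hx y hy hxy
  rw [Finset.mem_filter] at hx hy
  have hxU : x ∈ (U : Set V) := hx.1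
  have hyU : y ∈ (U : Set V) := hy.1
  have h4 : C ⟨x, hxU⟩ ≠ C ⟨y, hyU⟩ := C.valid hxy
  apply h4
  have e1 : f x = C ⟨x, hxU⟩ := dif_pos hxU
  have e2 : f y = C ⟨y, hyU⟩ := dif_pos hyU
  rw [← e1, ← e2, hx.2, hy.2]

end IndX

open IndX in
/-- IND -/
theorem ind (hSP : S_SP) (hSA : S_SAMP) : S_IND := by
  classical
  intro K hK
  obtain ⟨D1, hD1⟩ := hSP 1 one_pos le_rfl
  -- choice of `m`
  have hev : ∀ᶠ m : ℕ in Filter.atTop, 442368 * K ≤ Real.log (16 * m) := by
    have h1 : Filter.Tendsto (fun m : ℕ => Real.log (16 * (m : ℝ))) Filter.atTop Filter.atTop :=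
      Real.tendsto_log_atTop.comp
        (Filter.Tendsto.const_mul_atTop (by norm_num) tendsto_natCast_atTop_atTop)
    exact h1.eventually_ge_atTop _
  obtain ⟨m0, hm0⟩ := Filter.eventually_atTop.mp hev
  obtain ⟨m, hmd⟩ : ∃ m : ℕ, m = max (max m0 D1) 1 := ⟨_, rfl⟩
  have hm1 : 1 ≤ m := by rw [hmd]; exact le_max_right _ _
  have hmm0 : m0 ≤ m := by rw [hmd]; exact (le_max_left _ _).trans (le_max_left _ _)
  have hmD1 : D1 ≤ m := by rw [hmd]; exact (le_max_right _ _).trans (le_max_left _ _)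
  have hlog := hm0 m hmm0
  have hm0' : (0 : ℝ) < m := by exact_mod_cast hm1
  have hm1' : (1 : ℝ) ≤ m := by exact_mod_cast hm1
  refine ⟨12 * m ^ 2, m, hm1, ?_⟩
  intro D hD V _ _ G _ hdeg htri
  have hD0 : (0 : ℝ) < D := by
    have : 1 ≤ D := hm1.trans hD
    exact_mod_cast this
  have hDm : (m : ℝ) ≤ D := by exact_mod_cast hD
  obtain ⟨M, hMd⟩ : ∃ M : ℕ, M = ⌈(D : ℝ) / m⌉₊ := ⟨_, rfl⟩
  have hM1 : 1 ≤ M := by
    rw [hMd]
    exact Nat.one_le_ceil_iff.mpr (by positivity)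
  have hM0 : (0 : ℝ) < M := by exact_mod_cast hM1
  have hMge : (D : ℝ) ≤ m * M := by
    have h1 : (D : ℝ) / m ≤ M := by rw [hMd]; exact Nat.le_ceil _
    rw [div_le_iff₀ hm0'] at h1
    linarith
  have hMle : (M : ℝ) * m ≤ 2 * D := by
    have h1 : (M : ℝ) < (D : ℝ) / m + 1 := by
      rw [hMd]; exact Nat.ceil_lt_add_one (by positivity)
    have h2 : (M : ℝ) * m < ((D : ℝ) / m + 1) * m := mul_lt_mul_of_pos_right h1 hm0'
    have h3 : ((D : ℝ) / m + 1) * m = D + m := by field_simp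
    linarith
  set n := Fintype.card V with hn
  set E := (Finset.univ : Finset (V × V)).filter fun e => G.Adj e.1 e.2 with hE
  set T := (Finset.univ : Finset (V × V × V)).filter fun t =>
    G.Adj t.1 t.2.1 ∧ G.Adj t.1 t.2.2 ∧ G.Adj t.2.1 t.2.2 with hT
  have hEc : (E.card : ℝ) ≤ n * D := by
    have h1 : E = Finset.univ.biUnion fun v : V => (G.neighborFinset v).image fun y => (v, y) := by
      ext ⟨x, y⟩
      simp [hE]
    have h2 : E.card ≤ n * D := by
      rw [h1]
      refine le_trans Finset.card_biUnion_le ?_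
      calc ∑ v : V, ((G.neighborFinset v).image fun y => (v, y)).card ≤ ∑ _v : V, D :=
            Finset.sum_le_sum fun v _ => Finset.card_image_le.trans (hdeg v)
        _ = n * D := by rw [Finset.sum_const, smul_eq_mul, Finset.card_univ]
    exact_mod_cast h2
  obtain ⟨W, hW⟩ := hSA V E T (fun e he => (Finset.mem_filter.mp he).2.ne)
    (fun t ht => by
      have h1 := (Finset.mem_filter.mp ht).2
      exact ⟨h1.1.ne, h1.2.1.ne, h1.2.2.ne⟩) M hM1 (1 / (4 * m)) 3
  have hn0 : (0 : ℝ) ≤ n := Nat.cast_nonneg _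
  have hT0 : (12 * (m : ℝ) ^ 2) * T.card ≤ n * (D : ℝ) ^ 2 := by
    have := htri
    push_cast at this
    exact this
  have hlow : (n : ℝ) / (2 * M) ≤ (n : ℝ) / M - 1 / (4 * m) * E.card / (M : ℝ) ^ 2 -
      3 * T.card / (M : ℝ) ^ 3 := by
    have e1 : 1 / (4 * (m : ℝ)) * E.card / (M : ℝ) ^ 2 ≤ (n : ℝ) / (4 * M) := by
      rw [div_mul_eq_mul_div, one_mul, div_div, div_le_div_iff₀ (by positivity) (by positivity)]
      have h1 : (E.card : ℝ) ≤ n * (m * M) := hEc.trans (mul_le_mul_of_nonneg_left hMge hn0)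
      nlinarith [mul_pos hM0 hM0]
    have e2 : 3 * (T.card : ℝ) / (M : ℝ) ^ 3 ≤ (n : ℝ) / (4 * M) := by
      rw [div_le_div_iff₀ (by positivity) (by positivity)]
      have h1 : (D : ℝ) ^ 2 ≤ (m * M) ^ 2 := pow_le_pow_left₀ hD0.le hMge 2
      have h2 : (12 * (m : ℝ) ^ 2) * T.card ≤ n * (m * M) ^ 2 :=
        hT0.trans (mul_le_mul_of_nonneg_left h1 hn0)
      have h3 : 12 * (T.card : ℝ) ≤ n * (M : ℝ) ^ 2 := by
        have h4 : (m : ℝ) ^ 2 * (12 * (T.card : ℝ)) ≤ (m : ℝ) ^ 2 * (n * (M : ℝ) ^ 2) := by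
          calc _ = (12 * (m : ℝ) ^ 2) * T.card := by ring
            _ ≤ _ := h2
            _ = _ := by ring
        exact le_of_mul_le_mul_left h4 (by positivity)
      calc 3 * (T.card : ℝ) * (4 * M) = 12 * (T.card : ℝ) * M := by ring
        _ ≤ n * (M : ℝ) ^ 2 * M := mul_le_mul_of_nonneg_right h3 hM0.le
        _ = n * (M : ℝ) ^ 3 := by ring
    have e3 : (n : ℝ) / (2 * M) = n / M - n / (4 * M) - n / (4 * M) := by
      field_simp
      ring
    rw [e3]
    linarith
  have hkey := hlow.trans hW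
  obtain ⟨e, hed⟩ : ∃ e : ℕ, e = (E.filter fun e => e.1 ∈ W ∧ e.2 ∈ W).card := ⟨_, rfl⟩
  obtain ⟨t, htd⟩ : ∃ t : ℕ, t = (T.filter fun t => t.1 ∈ W ∧ t.2.1 ∈ W ∧ t.2.2 ∈ W).card :=
    ⟨_, rfl⟩
  rw [← hed, ← htd] at hkey
  have hnM : 0 ≤ (n : ℝ) / (2 * M) := by positivity
  have he0 : 0 ≤ 1 / (4 * (m : ℝ)) * e := by positivity
  have ht0 : (0 : ℝ) ≤ t := Nat.cast_nonneg _
  have heW : e ≤ 4 * m * W.card := by
    have h1 : 1 / (4 * (m : ℝ)) * e ≤ W.card := by linarith
    rw [div_mul_eq_mul_div, one_mul, div_le_iff₀ (by positivity)] at h1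
    have h2 : (e : ℝ) ≤ ((4 * m * W.card : ℕ) : ℝ) := by push_cast; linarith
    exact_mod_cast h2
  have htW : 3 * t ≤ W.card := by
    have h1 : 3 * (t : ℝ) ≤ W.card := by linarith
    exact_mod_cast h1
  have hWn : (n : ℝ) / (2 * M) ≤ W.card := by linarith
  obtain ⟨U, hUW, hU3, hUdeg, hUtri⟩ := clean G m hm1 W (by rw [← hE, ← hed]; exact heW)
    (by rw [← hT, ← htd]; exact htW)
  -- colouring of the induced graph
  have h16 : (0 : ℝ) < 16 * m := by positivity
  have hlogpos : 0 < Real.log (16 * m) := by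
    have : 0 < 442368 * K := by positivity
    linarith
  obtain ⟨k, hkd⟩ : ∃ k : ℕ, k = ⌈1152 / (1 : ℝ) ^ 2 * ((16 * m : ℕ) : ℝ) /
      Real.log ((16 * m : ℕ) : ℝ)⌉₊ := ⟨_, rfl⟩
  have hcast : ((16 * m : ℕ) : ℝ) = 16 * m := by push_cast; ring
  have hk1 : 1 ≤ k := by
    rw [hkd, hcast]
    exact Nat.one_le_ceil_iff.mpr (by positivity)
  have hcol : (G.induce (U : Set V)).Colorable k := by
    refine hD1 (16 * m) (by omega) _ (G.induce (U : Set V)) ?_ ?_ k ?_
    · intro v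
      refine le_trans ?_ (hUdeg v v.2)
      rw [← SimpleGraph.card_neighborFinset_eq_degree,
        ← Finset.card_map (Function.Embedding.subtype _)]
      apply Finset.card_le_card
      intro y hy
      obtain ⟨z, hz, rfl⟩ := Finset.mem_map.mp hy
      rw [SimpleGraph.mem_neighborFinset] at hz
      exact Finset.mem_filter.mpr ⟨z.2, hz⟩
    · intro v
      have h1 : ((Finset.univ : Finset (↥(U : Set V) × ↥(U : Set V))).filter fun p =>
          (G.induce (U : Set V)).Adj v p.1 ∧ (G.induce (U : Set V)).Adj v p.2 ∧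
          (G.induce (U : Set V)).Adj p.1 p.2) = ∅ := by
        rw [Finset.filter_eq_empty_iff]
        rintro ⟨x, y⟩ - ⟨h2, h3, h4⟩
        exact hUtri v v.2 x x.2 y y.2 h2 h3 h4
      rw [h1]
      simp only [Finset.card_empty, Nat.cast_zero]
      positivity
    · rw [hkd]
      exact Nat.le_ceil _
  obtain ⟨I, hI, hIc⟩ := pigeon G U k hk1 hcol
  refine ⟨I, hI, ?_⟩
  have hk2 : (k : ℝ) ≤ 36864 * m / Real.log (16 * m) := by
    have h1 : (k : ℝ) < 1152 / (1 : ℝ) ^ 2 * ((16 * m : ℕ) : ℝ) /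
        Real.log ((16 * m : ℕ) : ℝ) + 1 := by
      rw [hkd]
      exact Nat.ceil_lt_add_one (by rw [hcast]; positivity)
    rw [hcast] at h1
    have h2 : 1 ≤ 16 * (m : ℝ) / Real.log (16 * m) := by
      rw [le_div_iff₀ hlogpos, one_mul]
      exact (Real.log_le_sub_one_of_pos h16).trans (by linarith)
    have h3 : 1152 / (1 : ℝ) ^ 2 * (16 * (m : ℝ)) / Real.log (16 * m) =
        1152 * (16 * (m : ℝ) / Real.log (16 * m)) := by
      rw [mul_div_assoc]; norm_num
    have h4 : 36864 * (m : ℝ) / Real.log (16 * m) = 2304 * (16 * (m : ℝ) / Real.log (16 * m)) := by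
      rw [← mul_div_assoc]; ring
    rw [h3] at h1
    rw [h4]
    linarith
  have hWI : (W.card : ℝ) ≤ 3 * (k * I.card) := by
    have h1 : W.card ≤ 3 * (k * I.card) := hU3.trans (Nat.mul_le_mul_left 3 hIc)
    exact_mod_cast h1
  have hI0 : (0 : ℝ) ≤ I.card := Nat.cast_nonneg _
  rw [div_le_iff₀ hD0]
  -- `n ≤ 2 M * |W| ≤ 6 M k |I|`
  have h1 : (n : ℝ) ≤ 6 * M * k * I.card := by
    rw [div_le_iff₀ (by positivity)] at hWn
    calc (n : ℝ) ≤ W.card * (2 * M) := hWn
      _ ≤ (3 * (k * I.card)) * (2 * M) := mul_le_mul_of_nonneg_right hWI (by positivity)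
      _ = _ := by ring
  have h2 : (n : ℝ) ≤ 6 * M * (36864 * m / Real.log (16 * m)) * I.card := by
    refine h1.trans ?_
    exact mul_le_mul_of_nonneg_right (mul_le_mul_of_nonneg_left hk2 (by positivity)) hI0
  have h3 : (n : ℝ) * Real.log (16 * m) ≤ 442368 * D * I.card := by
    have h4 : 6 * (M : ℝ) * (36864 * m / Real.log (16 * m)) * I.card * Real.log (16 * m) =
        221184 * (M * m) * I.card := by
      have h6 : 36864 * (m : ℝ) / Real.log (16 * m) * Real.log (16 * m) = 36864 * m :=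
        div_mul_cancel₀ _ hlogpos.ne'
      calc _ = 6 * (M : ℝ) * I.card *
            (36864 * (m : ℝ) / Real.log (16 * m) * Real.log (16 * m)) := by ring
        _ = 6 * (M : ℝ) * I.card * (36864 * m) := by rw [h6]
        _ = _ := by ring
    calc (n : ℝ) * Real.log (16 * m) ≤
          6 * (M : ℝ) * (36864 * m / Real.log (16 * m)) * I.card * Real.log (16 * m) :=
          mul_le_mul_of_nonneg_right h2 hlogpos.le
      _ = 221184 * (M * m) * I.card := h4
      _ ≤ 221184 * (2 * D) * I.card := by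
          refine mul_le_mul_of_nonneg_right ?_ hI0
          exact mul_le_mul_of_nonneg_left hMle (by norm_num)
      _ = _ := by ring
  have h5 : (n : ℝ) * (442368 * K) ≤ 442368 * D * I.card :=
    (mul_le_mul_of_nonneg_left hlog hn0).trans h3
  nlinarith

end Vale.Agent.P042
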