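import Vale.Agent.P042.Defs

/-! P042: the values of a quadratic polynomial mod `p` (module LOCP, helper27). -/

set_option autoImplicit false

namespace Vale.Agent.P042

namespace LOCP

open Finset

variable {p : ℕ} [hp : Fact p.Prime]

/-- number of square roots -/
theorem card_sqrts (hp2 : p ≠ 2) (t : ZMod p) :
    (((univ : Finset (ZMod p)).filter (fun y => y ^ 2 = t)).card : ℤ) =
      quadraticChar (ZMod p) t + 1 := by
  have h := quadraticChar_card_sqrts (F := ZMod p) (by rwa [ZMod.ringChar_zmod_n]) t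
  rw [← h]
  congr 2
  ext y
  simp

/-- the character sum `∑ χ(y^2 - c)` -/
noncomputable def J (p : ℕ) [Fact p.Prime] (c : ZMod p) : ℤ :=
  ∑ y : ZMod p, quadraticChar (ZMod p) (y ^ 2 - c)

/-- number of points of the conic `y^2 - e z^2 = c` -/
theorem card_conic (hp2 : p ≠ 2) (e c : ZMod p) (he : e * e = 1) :
    (((univ : Finset (ZMod p × ZMod p)).filter (fun q => q.1 ^ 2 - e * q.2 ^ 2 = c)).card : ℤ) =
      p + quadraticChar (ZMod p) e * J p c := by
  have h1 : ((univ : Finset (ZMod p × ZMod p)).filter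
      (fun q => q.1 ^ 2 - e * q.2 ^ 2 = c)).card =
      ∑ y : ZMod p, ((univ : Finset (ZMod p)).filter
        (fun z => z ^ 2 = e * (y ^ 2 - c))).card := by
    rw [Finset.card_filter, ← Finset.univ_product_univ, Finset.sum_product]
    refine Finset.sum_congr rfl fun y _ => ?_
    rw [Finset.card_filter]
    refine Finset.sum_congr rfl fun z _ => ?_
    congr 1
    apply propext
    constructor
    · intro h
      linear_combination (-e) * h - (z ^ 2) * he
    · intro h
      linear_combination (-e) * h - (y ^ 2 - c) * he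
  rw [h1]
  push_cast
  have h2 : ∀ y : ZMod p, (((univ : Finset (ZMod p)).filter
        (fun z => z ^ 2 = e * (y ^ 2 - c))).card : ℤ) =
      quadraticChar (ZMod p) e * quadraticChar (ZMod p) (y ^ 2 - c) + 1 := by
    intro y
    rw [card_sqrts hp2, map_mul]
  rw [Finset.sum_congr rfl fun y _ => h2 y, Finset.sum_add_distrib, ← Finset.mul_sum]
  simp [J, ZMod.card]
  ring

/-- the hyperbola -/
theorem card_hyper (hp2 : p ≠ 2) (c : ZMod p) (hc : c ≠ 0) :
    ((univ : Finset (ZMod p × ZMod p)).filter (fun q => q.1 ^ 2 - 1 * q.2 ^ 2 = c)).card =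
      p - 1 := by
  have h2 : (2 : ZMod p) ≠ 0 := by
    intro h
    have : ((2 : ℕ) : ZMod p) = 0 := by exact_mod_cast h
    rw [ZMod.natCast_eq_zero_iff] at this
    exact hp2 ((Nat.prime_dvd_prime_iff_eq hp.out Nat.prime_two).mp this)
  have h3 : ((univ : Finset (ZMod p × ZMod p)).filter
      (fun q => q.1 ^ 2 - 1 * q.2 ^ 2 = c)).card = ((univ : Finset (ZMod p)).erase 0).card := by
    refine Finset.card_bij' (fun q _ => q.1 - q.2) (fun u _ => ((u + c / u) / 2, (c / u - u) / 2))
      ?_ ?_ ?_ ?_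
    · rintro ⟨y, z⟩ hq
      simp only [mem_filter, mem_univ, true_and] at hq
      simp only [mem_erase, mem_univ, and_true, ne_eq]
      intro h0
      apply hc
      rw [← hq]
      linear_combination (y + z) * h0
    · intro u hu
      simp only [mem_erase, mem_univ, and_true, ne_eq] at hu
      simp only [mem_filter, mem_univ, true_and]
      field_simp
      ring
    · rintro ⟨y, z⟩ hq
      simp only [mem_filter, mem_univ, true_and] at hq
      have h0 : y - z ≠ 0 := by
        intro h0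
        apply hc
        rw [← hq]
        linear_combination (y + z) * h0
      have h4 : c / (y - z) = y + z := by
        rw [div_eq_iff h0, ← hq]; ring
      simp only [h4, Prod.mk.injEq]
      constructor
      · field_simp; ring
      · field_simp; ring
    · intro u hu
      simp only [mem_erase, mem_univ, and_true, ne_eq] at hu
      simp only
      field_simp
      ring
  rw [h3, Finset.card_erase_of_mem (mem_univ _), Finset.card_univ, ZMod.card]

theorem J_bound (hp2 : p ≠ 2) (c : ZMod p) (hc : c ≠ 0) : J p c = -1 := by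
  have h1 := card_conic hp2 1 c (by ring)
  rw [card_hyper hp2 c hc] at h1
  have h2 : ((p - 1 : ℕ) : ℤ) = p - 1 := by
    rw [Nat.cast_sub hp.out.one_le]; simp
  rw [h2] at h1
  simp at h1
  linarith

theorem char_abs (t : ZMod p) : |quadraticChar (ZMod p) t| ≤ 1 := by
  by_cases ht : t = 0
  · subst ht; simp
  · rcases quadraticChar_dichotomy ht with h | h <;> rw [h] <;> simp

theorem J_abs (c : ZMod p) : |J p c| ≤ p := by
  unfold J
  refine (Finset.abs_sum_le_sum_abs _ _).trans ?_
  refine (Finset.sum_le_sum fun y _ => char_abs _).trans ?_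
  simp [ZMod.card]

/-- points of conics over a set -/
theorem card_conic_set (hp2 : p ≠ 2) (e : ZMod p) (he : e * e = 1) (C : Finset (ZMod p)) :
    ((univ : Finset (ZMod p × ZMod p)).filter (fun q => q.1 ^ 2 - e * q.2 ^ 2 ∈ C)).card ≤
      C.card * (p + 1) + p := by
  have h1 : ((univ : Finset (ZMod p × ZMod p)).filter
      (fun q => q.1 ^ 2 - e * q.2 ^ 2 ∈ C)).card =
      ∑ c ∈ C, ((univ : Finset (ZMod p × ZMod p)).filter
        (fun q => q.1 ^ 2 - e * q.2 ^ 2 = c)).card := by
    rw [Finset.card_eq_sum_card_fiberwise (f := fun q => q.1 ^ 2 - e * q.2 ^ 2) (t := C)]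
    · refine Finset.sum_congr rfl fun c hc => ?_
      congr 1
      ext q
      simp only [mem_filter, mem_univ, true_and]
      constructor
      · exact fun h => h.2
      · exact fun h => ⟨h ▸ hc, h⟩
    · intro q hq
      simpa using hq
  have h2 : ∀ c : ZMod p, ((univ : Finset (ZMod p × ZMod p)).filter
        (fun q => q.1 ^ 2 - e * q.2 ^ 2 = c)).card ≤ (p + 1) + if c = 0 then p else 0 := by
    intro c
    have h3 := card_conic hp2 e c he
    have h4 := char_abs e
    have h5 : quadraticChar (ZMod p) e * J p c ≤ |quadraticChar (ZMod p) e| * |J p c| := by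
      rw [← abs_mul]; exact le_abs_self _
    by_cases hc : c = 0
    · have h6 := J_abs c
      have h7 : |quadraticChar (ZMod p) e| * |J p c| ≤ 1 * p :=
        mul_le_mul h4 h6 (abs_nonneg _) (by norm_num)
      rw [if_pos hc]
      have : (((univ : Finset (ZMod p × ZMod p)).filter
        (fun q => q.1 ^ 2 - e * q.2 ^ 2 = c)).card : ℤ) ≤ ((p + 1 + p : ℕ) : ℤ) := by
        push_cast; linarith
      exact_mod_cast this
    · rw [J_bound hp2 c hc] at h5 h3
      rw [if_neg hc]
      have h7 : |quadraticChar (ZMod p) e| * |(-1 : ℤ)| ≤ 1 * 1 :=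
        mul_le_mul h4 (by simp) (abs_nonneg _) (by norm_num)
      have : (((univ : Finset (ZMod p × ZMod p)).filter
        (fun q => q.1 ^ 2 - e * q.2 ^ 2 = c)).card : ℤ) ≤ ((p + 1 + 0 : ℕ) : ℤ) := by
        push_cast; linarith
      exact_mod_cast this
  rw [h1]
  refine (Finset.sum_le_sum fun c _ => h2 c).trans ?_
  rw [Finset.sum_add_distrib, Finset.sum_const, smul_eq_mul]
  gcongr
  rw [Finset.sum_ite_eq' C (0 : ZMod p) (fun _ => p)]
  split_ifs <;> simp

/-- exactly two roots -/
theorem two_roots (hp2 : p ≠ 2) (t : ZMod p) (ht : t ≠ 0) (hs : ∃ y, y ^ 2 = t) :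
    ((univ : Finset (ZMod p)).filter (fun y => y ^ 2 = t)).card = 2 := by
  have h1 := card_sqrts hp2 t
  have h2 : quadraticChar (ZMod p) t = 1 := by
    rw [quadraticChar_one_iff_isSquare ht]
    obtain ⟨y, hy⟩ := hs
    exact ⟨y, by rw [← hy]; ring⟩
  rw [h2] at h1
  have h3 : (((univ : Finset (ZMod p)).filter (fun y => y ^ 2 = t)).card : ℤ) = ((2 : ℕ) : ℤ) := by
    rw [h1]; norm_num
  exact_mod_cast h3

/-- two preimages under `y ↦ a y^2 + β` -/
theorem two_pre (hp2 : p ≠ 2) (a β s : ZMod p) (ha : a ≠ 0) (hsβ : s ≠ β)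
    (hs : ∃ y, a * y ^ 2 + β = s) :
    ((univ : Finset (ZMod p)).filter (fun y => a * y ^ 2 + β = s)).card = 2 := by
  have h1 : (univ : Finset (ZMod p)).filter (fun y => a * y ^ 2 + β = s) =
      (univ : Finset (ZMod p)).filter (fun y => y ^ 2 = (s - β) / a) := by
    ext y
    simp only [mem_filter, mem_univ, true_and]
    rw [eq_div_iff ha]
    constructor
    · intro h; rw [← h]; ring
    · intro h
      have : a * y ^ 2 = s - β := by rw [← h]; ring
      rw [this]; ring
  rw [h1]
  refine two_roots hp2 _ ?_ ?_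
  · exact div_ne_zero (sub_ne_zero.mpr hsβ) ha
  · obtain ⟨y, hy⟩ := hs
    refine ⟨y, ?_⟩
    rw [eq_div_iff ha, ← hy]; ring

/-- size of the image -/
theorem card_H (hp2 : p ≠ 2) (a β : ZMod p) (ha : a ≠ 0) :
    2 * ((univ : Finset (ZMod p)).image (fun y => a * y ^ 2 + β)).card ≤ p + 1 := by
  set H := (univ : Finset (ZMod p)).image (fun y => a * y ^ 2 + β) with hH
  have hβ : β ∈ H := by
    rw [hH, mem_image]
    exact ⟨0, mem_univ _, by ring⟩
  have h1 : (univ : Finset (ZMod p)).card =
      ∑ h ∈ H, ((univ : Finset (ZMod p)).filter (fun y => a * y ^ 2 + β = h)).card :=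
    Finset.card_eq_sum_card_fiberwise (f := fun y => a * y ^ 2 + β) (t := H) (by
      intro y _
      rw [hH]
      exact Finset.mem_coe.mpr (mem_image_of_mem _ (mem_univ _)))
  rw [Finset.card_univ, ZMod.card, ← Finset.add_sum_erase H _ hβ] at h1
  have h2 : ∑ h ∈ H.erase β, ((univ : Finset (ZMod p)).filter
      (fun y => a * y ^ 2 + β = h)).card = ∑ h ∈ H.erase β, 2 := by
    refine Finset.sum_congr rfl fun h hh => ?_
    rw [mem_erase] at hh
    refine two_pre hp2 a β h ha hh.1 ?_
    have := hh.2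
    rw [hH, mem_image] at this
    obtain ⟨y, _, hy⟩ := this
    exact ⟨y, hy⟩
  rw [h2, Finset.sum_const, smul_eq_mul, Finset.card_erase_of_mem hβ] at h1
  have h3 : 1 ≤ ((univ : Finset (ZMod p)).filter (fun y => a * y ^ 2 + β = β)).card := by
    rw [Nat.one_le_iff_ne_zero, Finset.card_ne_zero]
    exact ⟨0, by simp⟩
  have h4 : 1 ≤ H.card := Finset.card_pos.mpr ⟨β, hβ⟩
  omega

/-- the count -/
theorem count (hp2 : p ≠ 2) (a β : ZMod p) (ha : a ≠ 0) (σ τ υ : ZMod p)
    (hσ : σ = 1 ∨ σ = -1) (hτ : τ = 1 ∨ τ = -1) (hυ : υ = 1 ∨ υ = -1) (H : Finset (ZMod p))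
    (hH : H = (univ : Finset (ZMod p)).image (fun y => a * y ^ 2 + β)) :
    4 * ((univ : Finset (ZMod p × ZMod p)).filter fun s =>
      σ * s.1 ∈ H ∧ τ * s.2 ∈ H ∧ υ * (s.1 - s.2) ∈ H).card ≤
      H.card * (p + 1) + p + 8 * H.card := by
  have hσ2 : σ * σ = 1 := by rcases hσ with h | h <;> rw [h] <;> ring
  have hτ2 : τ * τ = 1 := by rcases hτ with h | h <;> rw [h] <;> ring
  have hυ2 : υ * υ = 1 := by rcases hυ with h | h <;> rw [h] <;> ring
  set W := (univ : Finset (ZMod p × ZMod p)).filter fun s =>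
      σ * s.1 ∈ H ∧ τ * s.2 ∈ H ∧ υ * (s.1 - s.2) ∈ H with hW
  set W' := W.filter fun s => σ * s.1 ≠ β ∧ τ * s.2 ≠ β with hW'
  set G := (univ : Finset (ZMod p × ZMod p)).filter fun q =>
      υ * (σ * (a * q.1 ^ 2 + β) - τ * (a * q.2 ^ 2 + β)) ∈ H with hG
  have hmemH : ∀ x, x ∈ H ↔ ∃ y, a * y ^ 2 + β = x := by
    intro x
    rw [hH, mem_image]
    simp
  -- 4 |W'| ≤ |G|
  have h1 : 4 * W'.card ≤ G.card := by
    have hsub : ∑ w ∈ W', (G.filter fun q =>
        (σ * (a * q.1 ^ 2 + β), τ * (a * q.2 ^ 2 + β)) = w).card ≤ G.card := by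
      rw [← Finset.card_biUnion]
      · apply Finset.card_le_card
        intro q hq
        rw [mem_biUnion] at hq
        obtain ⟨w, _, hq⟩ := hq
        exact (mem_filter.mp hq).1
      · intro w _ w' _ hne
        rw [Function.onFun, Finset.disjoint_left]
        intro q hq hq'
        exact hne ((mem_filter.mp hq).2.symm.trans (mem_filter.mp hq').2)
    have hfib : ∀ w ∈ W', 4 ≤ (G.filter fun q =>
        (σ * (a * q.1 ^ 2 + β), τ * (a * q.2 ^ 2 + β)) = w).card := by
      intro w hw
      rw [hW', mem_filter, hW, mem_filter] at hw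
      obtain ⟨⟨_, w1, w2, w3⟩, w4, w5⟩ := hw
      have e1 := two_pre hp2 a β (σ * w.1) ha w4 ((hmemH _).mp w1)
      have e2 := two_pre hp2 a β (τ * w.2) ha w5 ((hmemH _).mp w2)
      have e3 : 4 = (((univ : Finset (ZMod p)).filter (fun y => a * y ^ 2 + β = σ * w.1)) ×ˢ
          ((univ : Finset (ZMod p)).filter (fun y => a * y ^ 2 + β = τ * w.2))).card := by
        rw [Finset.card_product, e1, e2]
      rw [e3]
      apply Finset.card_le_card
      rintro ⟨y, z⟩ hq
      rw [mem_product, mem_filter, mem_filter] at hq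
      obtain ⟨⟨_, q1⟩, ⟨_, q2⟩⟩ := hq
      simp only at q1 q2
      rw [mem_filter, hG, mem_filter]
      have f1 : σ * (a * y ^ 2 + β) = w.1 := by rw [q1, ← mul_assoc, hσ2, one_mul]
      have f2 : τ * (a * z ^ 2 + β) = w.2 := by rw [q2, ← mul_assoc, hτ2, one_mul]
      refine ⟨⟨mem_univ _, ?_⟩, ?_⟩
      · simp only
        rw [f1, f2]
        exact w3
      · simp only
        rw [f1, f2]
    calc 4 * W'.card = ∑ _w ∈ W', 4 := by rw [Finset.sum_const, smul_eq_mul, mul_comm]
      _ ≤ _ := Finset.sum_le_sum hfib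
      _ ≤ _ := hsub
  -- |G|
  have h2 : G.card ≤ H.card * (p + 1) + p := by
    set C := H.image (fun x => (υ * x - (σ - τ) * β) * σ / a) with hC
    have hCcard : C.card ≤ H.card := Finset.card_image_le
    have hGC : G ⊆ (univ : Finset (ZMod p × ZMod p)).filter
        (fun q => q.1 ^ 2 - (σ * τ) * q.2 ^ 2 ∈ C) := by
      intro q hq
      rw [hG, mem_filter] at hq
      rw [mem_filter]
      refine ⟨mem_univ _, ?_⟩
      rw [hC, mem_image]
      refine ⟨_, hq.2, ?_⟩
      rw [div_eq_iff ha]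
      have : υ * (υ * (σ * (a * q.1 ^ 2 + β) - τ * (a * q.2 ^ 2 + β))) =
          (υ * υ) * (σ * (a * q.1 ^ 2 + β) - τ * (a * q.2 ^ 2 + β)) := by ring
      rw [this, hυ2]
      linear_combination (a * q.1 ^ 2) * hσ2
    have h3 := card_conic_set hp2 (σ * τ) (by
      have : σ * τ * (σ * τ) = (σ * σ) * (τ * τ) := by ring
      rw [this, hσ2, hτ2, one_mul]) C
    calc G.card ≤ _ := Finset.card_le_card hGC
      _ ≤ C.card * (p + 1) + p := h3
      _ ≤ _ := by gcongr
  -- the rest
  have h4 : W.card ≤ W'.card + 2 * H.card := by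
    have hsub : W ⊆ W' ∪ ((H.image (fun x => (σ * β, τ * x))) ∪
        (H.image (fun x => (σ * x, τ * β)))) := by
      intro w hw
      rw [mem_union, mem_union]
      by_cases hw' : σ * w.1 ≠ β ∧ τ * w.2 ≠ β
      · left
        rw [hW', mem_filter]
        exact ⟨hw, hw'⟩
      · right
        rw [hW, mem_filter] at hw
        obtain ⟨_, w1, w2, _⟩ := hw
        have g1 : w.1 = σ * (σ * w.1) := by rw [← mul_assoc, hσ2, one_mul]
        have g2 : w.2 = τ * (τ * w.2) := by rw [← mul_assoc, hτ2, one_mul]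
        by_cases hw1 : σ * w.1 = β
        · left
          rw [mem_image]
          refine ⟨τ * w.2, w2, ?_⟩
          rw [← g2, ← hw1, ← g1]
        · right
          have hw2 : τ * w.2 = β := by
            by_contra hcon
            exact hw' ⟨hw1, hcon⟩
          rw [mem_image]
          refine ⟨σ * w.1, w1, ?_⟩
          rw [← g1, ← hw2, ← g2]
    calc W.card ≤ _ := Finset.card_le_card hsub
      _ ≤ _ := Finset.card_union_le _ _
      _ ≤ W'.card + (H.card + H.card) := by
        gcongr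
        exact (Finset.card_union_le _ _).trans (add_le_add Finset.card_image_le
          Finset.card_image_le)
      _ = _ := by ring
  calc 4 * W.card ≤ 4 * (W'.card + 2 * H.card) := by gcongr
    _ = 4 * W'.card + 8 * H.card := by ring
    _ ≤ _ := by gcongr; exact h1.trans h2

end LOCP

open LOCP in
/-- module LOCP -/
theorem locp : S_LOCP := by
  intro p hp hp2 a b c ha H hH
  have h2 : (2 : ZMod p) ≠ 0 := by
    intro h
    have : ((2 : ℕ) : ZMod p) = 0 := by exact_mod_cast h
    rw [ZMod.natCast_eq_zero_iff] at this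
    exact hp2 ((Nat.prime_dvd_prime_iff_eq hp.out Nat.prime_two).mp this)
  have hH' : H = (Finset.univ : Finset (ZMod p)).image
      (fun y => a * y ^ 2 + (c - b ^ 2 / (4 * a))) := by
    have h4 : (4 : ZMod p) ≠ 0 := by
      have : (4 : ZMod p) = 2 * 2 := by norm_num
      rw [this]; exact mul_ne_zero h2 h2
    rw [hH]
    ext x
    simp only [Finset.mem_image, Finset.mem_univ, true_and]
    constructor
    · rintro ⟨y, rfl⟩
      refine ⟨y + b / (2 * a), ?_⟩
      field_simp
      ring
    · rintro ⟨y, rfl⟩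
      refine ⟨y - b / (2 * a), ?_⟩
      field_simp
      ring
  have hcard := card_H hp2 a (c - b ^ 2 / (4 * a)) ha
  rw [← hH'] at hcard
  refine ⟨hcard, fun σ τ υ hσ hτ hυ => ?_⟩
  have hc := count hp2 a (c - b ^ 2 / (4 * a)) ha σ τ υ hσ hτ hυ H hH'
  have hp3 : 3 ≤ p := by
    have := hp.out.two_le
    omega
  have hpr : (3 : ℝ) ≤ p := by exact_mod_cast hp3
  have hcardr : 2 * (H.card : ℝ) ≤ p + 1 := by exact_mod_cast hcard
  have hcr : 4 * (((Finset.univ : Finset (ZMod p × ZMod p)).filter fun s =>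
      σ * s.1 ∈ H ∧ τ * s.2 ∈ H ∧ υ * (s.1 - s.2) ∈ H).card : ℝ) ≤
      H.card * ((p : ℝ) + 1) + p + 8 * H.card := by exact_mod_cast hc
  have hpow : (p : ℝ) ≤ (p : ℝ) ^ (3 / 2 : ℝ) := by
    calc (p : ℝ) = (p : ℝ) ^ (1 : ℝ) := (Real.rpow_one _).symm
      _ ≤ (p : ℝ) ^ (3 / 2 : ℝ) := Real.rpow_le_rpow_of_exponent_le (by linarith) (by norm_num)
  have hm : (H.card : ℝ) * ((p : ℝ) + 1) ≤ ((p : ℝ) + 1) / 2 * ((p : ℝ) + 1) :=
    mul_le_mul_of_nonneg_right (by linarith) (by linarith)
  nlinarith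

end Vale.Agent.P042
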