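import Vale.Agent.P042.Defs

/-! P042: Chinese remainder (modules PRODG, BIGGOOD, helper27). -/

set_option autoImplicit false

namespace Vale.Agent.P042

namespace PRODG

/-- Chinese remainder for integers -/
theorem crt (q1 q2 : ℕ) (h1 : 1 ≤ q1) (h2 : 1 ≤ q2) (hc : q1.Coprime q2) (x y : ℤ) :
    ∃ r : ℤ, 0 ≤ r ∧ r < ((q1 * q2 : ℕ) : ℤ) ∧ (q1 : ℤ) ∣ r - x ∧ (q2 : ℤ) ∣ r - y := by
  have hco : IsCoprime (q1 : ℤ) (q2 : ℤ) := Nat.isCoprime_iff_coprime.mpr hc
  obtain ⟨u, v, huv⟩ := hco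
  have hpos : (0 : ℤ) < ((q1 * q2 : ℕ) : ℤ) := by
    have : 0 < q1 * q2 := Nat.mul_pos h1 h2
    exact_mod_cast this
  refine ⟨(x * v * q2 + y * u * q1) % ((q1 * q2 : ℕ) : ℤ), Int.emod_nonneg _ hpos.ne',
    Int.emod_lt_of_pos _ hpos, ?_, ?_⟩
  · have e1 : (x * v * q2 + y * u * q1) % ((q1 * q2 : ℕ) : ℤ) - x =
        (q1 : ℤ) * (-(q2 : ℤ) * ((x * v * q2 + y * u * q1) / ((q1 * q2 : ℕ) : ℤ)) + y * u
          - x * u) := by
      rw [Int.emod_def]
      push_cast
      linear_combination x * huv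
    rw [e1]; exact Dvd.intro _ rfl
  · have e1 : (x * v * q2 + y * u * q1) % ((q1 * q2 : ℕ) : ℤ) - y =
        (q2 : ℤ) * (-(q1 : ℤ) * ((x * v * q2 + y * u * q1) / ((q1 * q2 : ℕ) : ℤ)) + x * v
          - y * v) := by
      rw [Int.emod_def]
      push_cast
      linear_combination y * huv
    rw [e1]; exact Dvd.intro _ rfl

/-- equality of residues in `[0, q)` -/
theorem eq_of_dvd (q : ℕ) (x y : ℤ) (hx : 0 ≤ x ∧ x < q) (hy : 0 ≤ y ∧ y < q)
    (h : (q : ℤ) ∣ x - y) : x = y := by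
  have h1 : |x - y| < q := by
    rw [abs_lt]; constructor <;> linarith [hx.1, hx.2, hy.1, hy.2]
  have := Int.eq_zero_of_abs_lt_dvd h h1
  linarith

end PRODG

open PRODG in
/-- module PRODG -/
theorem prodg : S_PRODG := by
  classical
  rintro h q1 m1 q2 m2 hq1 hq2 hc ⟨R1, hR1, hm1, hd1⟩ ⟨R2, hR2, hm2, hd2⟩
  choose f hf0 hf1 hf2 hf3 using fun (x : ℤ × ℤ) => crt q1 q2 hq1 hq2 hc x.1 x.2
  refine ⟨(R1 ×ˢ R2).image f, ?_, ?_, ?_⟩
  · intro r hr
    rw [Finset.mem_image] at hr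
    obtain ⟨x, _, rfl⟩ := hr
    exact ⟨hf0 x, hf1 x⟩
  · rw [Finset.card_image_of_injOn, Finset.card_product]
    · exact Nat.mul_le_mul hm1 hm2
    · intro x hx y hy hxy
      rw [Finset.mem_coe, Finset.mem_product] at hx hy
      have e1 : x.1 = y.1 := by
        apply eq_of_dvd q1 _ _ (hR1 _ hx.1) (hR1 _ hy.1)
        have := dvd_sub (hf2 y) (hf2 x)
        rw [← hxy] at this
        have e : f x - y.1 - (f x - x.1) = x.1 - y.1 := by ring
        rwa [e] at this
      have e2 : x.2 = y.2 := by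
        apply eq_of_dvd q2 _ _ (hR2 _ hx.2) (hR2 _ hy.2)
        have := dvd_sub (hf3 y) (hf3 x)
        rw [← hxy] at this
        have e : f x - y.2 - (f x - x.2) = x.2 - y.2 := by ring
        rwa [e] at this
      exact Prod.ext e1 e2
  · intro r hr s hs n hn
    rw [Finset.mem_image] at hr hs
    obtain ⟨x, hx, rfl⟩ := hr
    obtain ⟨y, hy, rfl⟩ := hs
    rw [Finset.mem_product] at hx hy
    have d1 : (q1 : ℤ) ∣ h.eval n - (f x - f y) := by
      refine dvd_trans ?_ hn
      push_cast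
      exact Dvd.intro _ rfl
    have d2 : (q2 : ℤ) ∣ h.eval n - (f x - f y) := by
      refine dvd_trans ?_ hn
      push_cast
      exact Dvd.intro_left _ rfl
    have e1 : x.1 = y.1 := by
      apply hd1 _ hx.1 _ hy.1 n
      have := dvd_add d1 (dvd_sub (hf2 x) (hf2 y))
      have e : h.eval n - (f x - f y) + (f x - x.1 - (f y - y.1)) =
          h.eval n - (x.1 - y.1) := by ring
      rwa [e] at this
    have e2 : x.2 = y.2 := by
      apply hd2 _ hx.2 _ hy.2 n
      have := dvd_add d2 (dvd_sub (hf3 x) (hf3 y))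
      have e : h.eval n - (f x - f y) + (f x - x.2 - (f y - y.2)) =
          h.eval n - (x.2 - y.2) := by ring
      rwa [e] at this
    rw [Prod.ext e1 e2]

open PRODG in
/-- module BIGGOOD -/
theorem biggood (hB : S_BLOCK) (hG : S_PRODG) : S_BIGGOOD := by
  classical
  obtain ⟨w, p0, hw, hblock⟩ := hB
  refine ⟨w, p0, hw, fun a b c B => ?_⟩
  induction B with
  | zero =>
    intro P hP _
    have : P = ∅ := by
      rw [← Finset.card_eq_zero, hP]; simp
    subst this
    refine ⟨{0}, ?_, by simp, ?_⟩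
    · intro r hr
      rw [Finset.mem_singleton] at hr
      subst hr
      simp
    · intro r hr s hs n _
      rw [Finset.mem_singleton] at hr hs
      rw [hr, hs]
  | succ B ih =>
    intro P hP hprime
    obtain ⟨Q, hQP, hQ⟩ := Finset.exists_subset_card_eq (s := P) (n := w) (by
      rw [hP]; exact Nat.le_mul_of_pos_right w (Nat.succ_pos B))
    have hrest : (P \ Q).card = w * B := by
      rw [Finset.card_sdiff_of_subset hQP, hP, hQ]
      rw [Nat.mul_succ]; omega
    have h1 := hblock a b c Q hQ (fun p hp => hprime p (hQP hp))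
    have h2 := ih (P \ Q) hrest (fun p hp => hprime p (Finset.sdiff_subset hp))
    have hprod : ∏ p ∈ P, p = (∏ p ∈ Q, p) * ∏ p ∈ P \ Q, p := by
      rw [mul_comm, Finset.prod_sdiff hQP]
    have hcop : (∏ p ∈ Q, p).Coprime (∏ p ∈ P \ Q, p) := by
      apply Nat.Coprime.prod_left
      intro p hp
      apply Nat.Coprime.prod_right
      intro q hq
      rw [Nat.coprime_primes (hprime p (hQP hp)).1 (hprime q (Finset.sdiff_subset hq)).1]
      intro heq
      subst heq
      exact (Finset.mem_sdiff.mp hq).2 hp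
    have h3 := hG _ _ _ _ _ (Finset.prod_pos fun p hp => (hprime p (hQP hp)).1.pos)
      (Finset.prod_pos fun p hp => (hprime p (Finset.sdiff_subset hp)).1.pos) hcop h1 h2
    rw [← hprod] at h3
    have e : 2 * 2 ^ w * (2 ^ B * 2 ^ (w * B)) = 2 ^ (B + 1) * 2 ^ (w * (B + 1)) := by
      rw [Nat.mul_succ, pow_add, pow_succ]; ring
    rwa [e] at h3

end Vale.Agent.P042
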