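import Mathlib
import Vale.Agent.P042.Defs

/-!
# P042, module PRIM: enough primes
-/

set_option autoImplicit false

namespace Vale.Agent.P042

open Filter Topology

namespace PRIM

/-- the primes in `(p1, y]` -/
def pr (p1 y : ℕ) : Finset ℕ := (Finset.range (y + 1)).filter fun p => p.Prime ∧ p1 < p

theorem pr_card (p1 y : ℕ) : (Nat.primeCounting y) ≤ (pr p1 y).card + p1 := by
  classical
  rw [Nat.primeCounting, Nat.primeCounting', Nat.count_eq_card_filter_range]
  have h1 : (Finset.range (y + 1)).filter Nat.Prime ⊆ pr p1 y ∪ Finset.Icc 1 p1 := by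
    intro p hp
    rw [Finset.mem_filter] at hp
    rw [Finset.mem_union, Finset.mem_Icc, pr, Finset.mem_filter]
    by_cases h : p1 < p
    · exact Or.inl ⟨hp.1, hp.2, h⟩
    · exact Or.inr ⟨hp.2.one_lt.le, by omega⟩
  calc _ ≤ (pr p1 y ∪ Finset.Icc 1 p1).card := Finset.card_le_card h1
    _ ≤ (pr p1 y).card + (Finset.Icc 1 p1).card := Finset.card_union_le _ _
    _ = _ := by simp

theorem pr_prod (p1 y : ℕ) (P : Finset ℕ) (hP : P ⊆ pr p1 y) : ∏ p ∈ P, p ≤ 4 ^ y := by
  classical
  have h1 : P ⊆ (Finset.range (y + 1)).filter Nat.Prime := by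
    intro p hp
    have := hP hp
    rw [pr, Finset.mem_filter] at this
    rw [Finset.mem_filter]
    exact ⟨this.1, this.2.1⟩
  calc ∏ p ∈ P, p ≤ ∏ p ∈ (Finset.range (y + 1)).filter Nat.Prime, p := by
        apply Finset.prod_le_prod_of_subset_of_one_le' h1
        intro p hp _
        rw [Finset.mem_filter] at hp
        exact hp.2.one_lt.le
    _ = primorial y := rfl
    _ ≤ 4 ^ y := primorial_le_four_pow y

/-- asymptotics: with `y = ⌊L/(4 log 2)⌋`, `π(y) ≥ c L / log L` for large `L` -/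
theorem asym : ∃ c : ℝ, 0 < c ∧ ∃ L0 : ℝ, ∀ L : ℝ, L0 ≤ L →
    c * L / Real.log L ≤ Nat.primeCounting ⌊L / (4 * Real.log 2)⌋₊ := by
  refine ⟨1 / 16, by norm_num, ?_⟩
  have hlog2 : 0.69 < Real.log 2 := by have := Real.log_two_gt_d9; linarith
  have hlog2' : Real.log 2 < 0.7 := by have := Real.log_two_lt_d9; linarith
  -- log x ≤ x / 100 eventually
  have h1 : ∀ᶠ L : ℝ in atTop, Real.log L ≤ L / 100 := by
    have := Real.isLittleO_log_id_atTop.bound (show (0 : ℝ) < 1 / 100 by norm_num)
    filter_upwards [this, eventually_ge_atTop (1 : ℝ)] with L hL hL1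
    rw [Real.norm_eq_abs, Real.norm_eq_abs, abs_of_nonneg (Real.log_nonneg hL1), id,
      abs_of_nonneg (by linarith)] at hL
    linarith
  obtain ⟨L1, hL1⟩ := eventually_atTop.mp h1
  refine ⟨max L1 1000, ?_⟩
  intro L hL
  have hLL1 : L1 ≤ L := (le_max_left _ _).trans hL
  have hL1000 : (1000 : ℝ) ≤ L := (le_max_right _ _).trans hL
  have hlogL := hL1 L hLL1
  set x : ℝ := L / (4 * Real.log 2) with hx
  set y : ℕ := ⌊x⌋₊ with hy
  have hxlow : L / 3 ≤ x := by
    rw [hx]
    apply div_le_div_of_nonneg_left (by linarith) (by linarith) (by linarith)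
  have hxhigh : x ≤ L / 2 := by
    rw [hx]
    apply div_le_div_of_nonneg_left (by linarith) (by linarith) (by linarith)
  have hy1 : (y : ℝ) ≤ x := Nat.floor_le (by linarith)
  have hy2 : x < y + 1 := Nat.lt_floor_add_one x
  have hyL : (y : ℝ) + 1 ≤ L := by linarith
  have hypos : (1 : ℝ) < y := by linarith
  have hlogy : 0 < Real.log y := Real.log_pos hypos
  have hlogyL : Real.log y ≤ Real.log L := Real.log_le_log (by linarith) (by linarith)
  have hlogy1L : Real.log (y + 1) ≤ Real.log L := Real.log_le_log (by linarith) hyL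
  have hlogLpos : 0 < Real.log L := lt_of_lt_of_le hlogy hlogyL
  have h2 := Chebyshev.pi_ge y
  refine le_trans ?_ h2
  have h3 : L / 16 ≤ y * Real.log 2 - Real.log (y + 1) := by
    have h4 : (y : ℝ) * Real.log 2 ≥ (L / 3 - 1) * 0.69 := by
      apply mul_le_mul (by linarith) hlog2.le (by norm_num) (by linarith)
    linarith
  calc 1 / 16 * L / Real.log L = (L / 16) / Real.log L := by ring
    _ ≤ (y * Real.log 2 - Real.log (y + 1)) / Real.log L :=
        div_le_div_of_nonneg_right h3 hlogLpos.le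
    _ ≤ (y * Real.log 2 - Real.log (y + 1)) / Real.log y :=
        div_le_div_of_nonneg_left (by linarith) hlogy hlogyL

end PRIM

open PRIM in
theorem prim : S_PRIM := by
  classical
  intro w p0 a hw ha
  obtain ⟨c, hc, L0, hL0⟩ := asym
  -- L / log L → ∞
  have hlim : Tendsto (fun L : ℝ => L / Real.log L) atTop atTop := by
    have h1 : Tendsto (fun L : ℝ => Real.log L / L) atTop (𝓝[>] 0) := by
      rw [tendsto_nhdsWithin_iff]
      refine ⟨Real.isLittleO_log_id_atTop.tendsto_div_nhds_zero, ?_⟩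
      filter_upwards [eventually_gt_atTop (1 : ℝ)] with L hL
      exact div_pos (Real.log_pos hL) (by linarith)
    have h2 := h1.inv_tendsto_nhdsGT_zero
    refine h2.congr fun L => ?_
    simp
  have hwR : (1 : ℝ) ≤ w := by exact_mod_cast hw
  have hev : ∀ᶠ L : ℝ in atTop, (2 * ((max p0 a : ℕ) + w : ℝ)) / c ≤ L / Real.log L ∧
      L0 ≤ L ∧ 1 < L :=
    (hlim.eventually_ge_atTop _).and ((eventually_ge_atTop L0).and (eventually_gt_atTop 1))
  have hlogN : Tendsto (fun N : ℕ => Real.log (N : ℝ)) atTop atTop :=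
    Real.tendsto_log_atTop.comp tendsto_natCast_atTop_atTop
  obtain ⟨N0, hN0⟩ := eventually_atTop.mp (hlogN.eventually hev)
  refine ⟨c / (2 * w), by positivity, max N0 1, ?_⟩
  intro N hN
  obtain ⟨h1, h2, h3⟩ := hN0 N ((le_max_left _ _).trans hN)
  have hN1 : 1 ≤ N := (le_max_right _ _).trans hN
  set L := Real.log (N : ℝ) with hL
  have hpi := hL0 L h2
  set y : ℕ := ⌊L / (4 * Real.log 2)⌋₊ with hy
  set p1 : ℕ := max p0 a with hp1
  have hcard := pr_card p1 y
  have hcardR : (Nat.primeCounting y : ℝ) ≤ (pr p1 y).card + p1 := by exact_mod_cast hcard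
  let B : ℕ := (pr p1 y).card / w
  have hB : w * B ≤ (pr p1 y).card := Nat.mul_div_le _ _
  obtain ⟨P, hPsub, hPcard⟩ := Finset.exists_subset_card_eq hB
  refine ⟨B, P, hPcard, ?_, ?_, ?_⟩
  · intro p hp
    have := hPsub hp
    rw [pr, Finset.mem_filter] at this
    have hlt : p1 < p := this.2.2
    refine ⟨this.2.1, lt_of_le_of_lt (le_max_left _ _) hlt, ?_⟩
    intro hdvd
    have h4 := Nat.le_of_dvd ha hdvd
    have h5 : a ≤ p1 := le_max_right _ _
    omega
  · have h4 := pr_prod p1 y P hPsub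
    have h5 : ((∏ p ∈ P, p) ^ 2 : ℕ) ≤ (4 ^ y) ^ 2 := Nat.pow_le_pow_left h4 2
    have h6 : ((4 : ℝ) ^ y) ^ 2 ≤ N := by
      have hlog2 : 0 < Real.log 2 := Real.log_pos (by norm_num)
      have h7 : (y : ℝ) ≤ L / (4 * Real.log 2) := Nat.floor_le (by positivity)
      have h8 : (y : ℝ) * (4 * Real.log 2) ≤ L := by
        rwa [le_div_iff₀ (by positivity)] at h7
      have h9 : ((4 : ℝ) ^ y) ^ 2 = Real.exp ((y : ℝ) * (4 * Real.log 2)) := by
        have h10 : (y : ℝ) * (4 * Real.log 2) = ((y * 4 : ℕ) : ℝ) * Real.log 2 := by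
          push_cast; ring
        rw [h10, Real.exp_nat_mul, Real.exp_log (by norm_num)]
        have h11 : (4 : ℝ) ^ y = 2 ^ (2 * y) := by
          rw [pow_mul]; norm_num
        rw [h11, ← pow_mul]
        congr 1
        ring
      rw [h9]
      calc Real.exp ((y : ℝ) * (4 * Real.log 2)) ≤ Real.exp L := Real.exp_le_exp.mpr h8
        _ = N := Real.exp_log (by exact_mod_cast hN1)
    have h7 : ((4 ^ y) ^ 2 : ℕ) ≤ N := by exact_mod_cast h6
    exact h5.trans h7
  · have hlogL : 0 < Real.log L := Real.log_pos h3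
    have hw0 : (0 : ℝ) < w := by linarith
    have h4 : ((pr p1 y).card : ℝ) < w * (B + 1) := by
      have := Nat.lt_mul_div_succ (pr p1 y).card hw
      exact_mod_cast this
    have h5 : 2 * ((p1 : ℝ) + w) ≤ c * (L / Real.log L) := by
      rw [div_le_iff₀ hc] at h1
      linarith
    have h6 : c * L / Real.log L = c * (L / Real.log L) := by ring
    rw [h6] at hpi
    have h7 : c / (2 * w) * L / Real.log L = (c * (L / Real.log L)) / (2 * w) := by
      field_simp
    show c / (2 * w) * L / Real.log L ≤ (B : ℝ)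
    rw [h7, div_le_iff₀ (by positivity)]
    nlinarith

end Vale.Agent.P042
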