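import Vale.Agent.P042.Defs

/-! P042, ROOT: roots of a quadratic polynomial modulo a product of primes. -/

set_option autoImplicit false

namespace Vale.Agent.P042

namespace ROOT

open Polynomial

lemma two_roots (p : ℕ) [Fact p.Prime] (a b c : ZMod p) (ha : a ≠ 0) :
    (Finset.univ.filter (fun x : ZMod p => a * x ^ 2 + b * x + c = 0)).card ≤ 2 := by
  classical
  have hdeg : (C a * X ^ 2 + C b * X + C c : (ZMod p)[X]).natDegree = 2 :=
    natDegree_quadratic ha
  have hne : (C a * X ^ 2 + C b * X + C c : (ZMod p)[X]) ≠ 0 := by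
    intro h
    rw [h, natDegree_zero] at hdeg
    exact absurd hdeg (by norm_num)
  have hsub : Finset.univ.filter (fun x : ZMod p => a * x ^ 2 + b * x + c = 0)
      ⊆ (C a * X ^ 2 + C b * X + C c : (ZMod p)[X]).roots.toFinset := by
    intro x hx
    rw [Multiset.mem_toFinset, mem_roots hne, IsRoot.def]
    have := (Finset.mem_filter.1 hx).2
    simpa using this
  calc _ ≤ _ := Finset.card_le_card hsub
    _ ≤ Multiset.card (C a * X ^ 2 + C b * X + C c : (ZMod p)[X]).roots :=
      Multiset.toFinset_card_le _
    _ ≤ 2 := by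
      have := card_roots' (C a * X ^ 2 + C b * X + C c : (ZMod p)[X])
      omega

end ROOT

open ROOT Polynomial in
theorem root : S_ROOT := by
  intro a b c P hP Y
  classical
  set q : ℕ := ∏ p ∈ P, p with hq
  have hq0 : 0 < q := Finset.prod_pos (fun p hp => (hP p hp).1.pos)
  have : ∀ p : {p // p ∈ P}, Fact (p.1.Prime) := fun p => ⟨(hP p.1 p.2).1⟩
  let T : Finset (∀ p : {p // p ∈ P}, ZMod p.1) := Fintype.piFinset (fun p =>
    Finset.univ.filter (fun x : ZMod p.1 => (a : ZMod p.1) * x ^ 2 + (b : ZMod p.1) * x
      + (c : ZMod p.1) = 0))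
  have hT : T.card ≤ 2 ^ P.card := by
    rw [Fintype.card_piFinset]
    calc _ ≤ ∏ _p : {p // p ∈ P}, 2 := by
          apply Finset.prod_le_prod' 
          intro p _
          apply two_roots
          intro h0
          rw [ZMod.intCast_zmod_eq_zero_iff_dvd] at h0
          exact (hP p.1 p.2).2 h0
      _ = 2 ^ P.card := by
          rw [Finset.prod_const, Finset.card_univ, Fintype.card_coe]
  have hdvd : ∀ n m : ℤ, (∀ p : {p // p ∈ P}, (n : ZMod p.1) = (m : ZMod p.1)) → (q : ℤ) ∣ n - m := by
    intro n m h
    rw [hq]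
    push_cast
    apply Finset.prod_dvd_of_coprime
    · intro p hp p' hp' hne
      have := (Nat.coprime_primes (hP p hp).1 (hP p' hp').1).2 hne
      exact Nat.isCoprime_iff_coprime.2 this
    · intro p hp
      have := h ⟨p, hp⟩
      rw [← ZMod.intCast_zmod_eq_zero_iff_dvd]
      push_cast
      rw [this, sub_self]
  calc ((Finset.Icc (1 : ℤ) Y).filter fun n => (q : ℤ) ∣ (quad a b c).eval n).card
      ≤ (T ×ˢ Finset.range (Y / q + 1)).card := by
        apply Finset.card_le_card_of_injOn
          (fun n : ℤ => ((fun p : {p // p ∈ P} => (n : ZMod p.1)), (n / (q : ℤ)).toNat))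
        · intro n hn
          have hn' := Finset.mem_filter.1 (Finset.mem_coe.1 hn)
          have hn1 := Finset.mem_Icc.1 hn'.1
          rw [Finset.mem_coe, Finset.mem_product]
          constructor
          · rw [Fintype.mem_piFinset]
            intro p
            rw [Finset.mem_filter]
            refine ⟨Finset.mem_univ _, ?_⟩
            have h1 : ((p.1 : ℕ) : ℤ) ∣ (quad a b c).eval n :=
              dvd_trans (by rw [hq]; push_cast; exact Finset.dvd_prod_of_mem _ p.2) hn'.2
            rw [← ZMod.intCast_zmod_eq_zero_iff_dvd] at h1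
            simp only [quad, eval_add, eval_mul, eval_C, eval_pow, eval_X] at h1
            push_cast at h1
            exact h1
          · rw [Finset.mem_range, Nat.lt_succ_iff]
            have h2 : n / (q : ℤ) ≤ (Y : ℤ) / (q : ℤ) :=
              Int.ediv_le_ediv (by exact_mod_cast hq0) hn1.2
            have h3 : ((Y / q : ℕ) : ℤ) = (Y : ℤ) / (q : ℤ) := by push_cast; rfl
            have h4 : n / (q : ℤ) ≤ ((Y / q : ℕ) : ℤ) := by rw [h3]; exact h2
            change (n / (q : ℤ)).toNat ≤ Y / q
            exact Int.toNat_le.2 h4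
        · intro n hn m hm hnm
          have hn1 := Finset.mem_Icc.1 (Finset.mem_filter.1 (Finset.mem_coe.1 hn)).1
          have hm1 := Finset.mem_Icc.1 (Finset.mem_filter.1 (Finset.mem_coe.1 hm)).1
          simp only [Prod.mk.injEq] at hnm
          have h1 := hdvd n m (fun p => congrFun hnm.1 p)
          have hq0' : (0 : ℤ) < q := by exact_mod_cast hq0
          have h2 : n / (q : ℤ) = m / (q : ℤ) := by
            have ha : 0 ≤ n / (q : ℤ) := Int.ediv_nonneg (by omega) hq0'.le
            have hb : 0 ≤ m / (q : ℤ) := Int.ediv_nonneg (by omega) hq0'.le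
            have := hnm.2
            omega
          have h3 : n % (q : ℤ) = m % (q : ℤ) :=
            Int.emod_eq_emod_iff_emod_sub_eq_zero.2 (Int.emod_eq_zero_of_dvd h1)
          rw [← Int.emod_add_mul_ediv n q, ← Int.emod_add_mul_ediv m q, h2, h3]
    _ = T.card * (Y / q + 1) := by rw [Finset.card_product, Finset.card_range]
    _ ≤ 2 ^ P.card * (Y / q + 1) := Nat.mul_le_mul_right _ hT

end Vale.Agent.P042
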