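import Vale.Agent.P042.Defs

/-!
# P042: a random colour class
-/

set_option autoImplicit false

namespace Vale.Agent.P042

open Finset

namespace SampX

variable {V : Type} [Fintype V] [DecidableEq V]

theorem cnt (M : ℕ) (z : Fin M) (S : Finset V) :
    (∑ c : V → Fin M, if ∀ v ∈ S, c v = z then (1 : ℝ) else 0) =
      (M : ℝ) ^ Fintype.card V / (M : ℝ) ^ S.card := by
  have hM : (0 : ℝ) < M := by exact_mod_cast (Nat.pos_of_ne_zero (by rintro rfl; exact z.elim0))
  rw [← Finset.sum_filter, Finset.sum_const, nsmul_eq_mul, mul_one]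
  have e : (Finset.univ.filter fun c : V → Fin M => ∀ v ∈ S, c v = z) =
      Fintype.piFinset (fun v => if v ∈ S then {z} else Finset.univ) := by
    ext c
    simp only [Finset.mem_filter, Finset.mem_univ, true_and, Fintype.mem_piFinset]
    constructor
    · intro h v
      by_cases hv : v ∈ S
      · simp [hv, h v hv]
      · simp [hv]
    · intro h v hv
      have := h v
      simpa [hv] using this
  rw [e, Fintype.card_piFinset]
  have e2 : (∏ v : V, ((if v ∈ S then ({z} : Finset (Fin M)) else Finset.univ).card)) *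
      M ^ S.card = M ^ Fintype.card V := by
    have e3 : ∀ v : V, ((if v ∈ S then ({z} : Finset (Fin M)) else Finset.univ).card) =
        if v ∈ S then 1 else M := by
      intro v
      by_cases hv : v ∈ S <;> simp [hv]
    rw [Finset.prod_congr rfl fun v _ => e3 v]
    have e4 : M ^ S.card = ∏ v : V, if v ∈ S then M else 1 := by
      rw [Finset.prod_ite]
      simp
    rw [e4, ← Finset.prod_mul_distrib]
    have e5 : ∀ v : V, ((if v ∈ S then 1 else M) * if v ∈ S then M else 1) = M := by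
      intro v
      by_cases hv : v ∈ S <;> simp [hv]
    rw [Finset.prod_congr rfl fun v _ => e5 v]
    simp
  rw [eq_div_iff (by positivity)]
  exact_mod_cast e2

end SampX

open SampX in
/-- SAMP -/
theorem samp : S_SAMP := by
  intro V _ _ E T hE hT M hM a b
  obtain ⟨z⟩ : Nonempty (Fin M) := ⟨⟨0, hM⟩⟩
  have hM0 : (0 : ℝ) < M := by exact_mod_cast hM
  set n := Fintype.card V with hn
  -- the class of colour `z`
  let W : (V → Fin M) → Finset V := fun c => Finset.univ.filter fun v => c v = z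
  have h1 : ∑ c : V → Fin M, ((W c).card : ℝ) = n * ((M : ℝ) ^ n / M) := by
    have e1 : ∀ c : V → Fin M, ((W c).card : ℝ) =
        ∑ v : V, if ∀ u ∈ ({v} : Finset V), c u = z then (1 : ℝ) else 0 := by
      intro c
      simp [W, Finset.sum_ite]
    rw [Finset.sum_congr rfl fun c _ => e1 c, Finset.sum_comm,
      Finset.sum_congr rfl fun v _ => cnt M z {v}]
    simp [hn]
  have h2 : ∑ c : V → Fin M, ((E.filter fun e => e.1 ∈ W c ∧ e.2 ∈ W c).card : ℝ) =
      E.card * ((M : ℝ) ^ n / (M : ℝ) ^ 2) := by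
    have e1 : ∀ c : V → Fin M, ((E.filter fun e => e.1 ∈ W c ∧ e.2 ∈ W c).card : ℝ) =
        ∑ e ∈ E, if ∀ u ∈ ({e.1, e.2} : Finset V), c u = z then (1 : ℝ) else 0 := by
      intro c
      rw [← Finset.sum_filter, Finset.sum_const, nsmul_eq_mul, mul_one]
      congr 2
      ext e
      simp [W]
    rw [Finset.sum_congr rfl fun c _ => e1 c, Finset.sum_comm,
      Finset.sum_congr rfl fun e he => by
        rw [cnt M z {e.1, e.2}, Finset.card_pair (hE e he)]]
    simp [hn]
  have h3 : ∑ c : V → Fin M,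
      ((T.filter fun t => t.1 ∈ W c ∧ t.2.1 ∈ W c ∧ t.2.2 ∈ W c).card : ℝ) =
      T.card * ((M : ℝ) ^ n / (M : ℝ) ^ 3) := by
    have e1 : ∀ c : V → Fin M,
        ((T.filter fun t => t.1 ∈ W c ∧ t.2.1 ∈ W c ∧ t.2.2 ∈ W c).card : ℝ) =
        ∑ t ∈ T, if ∀ u ∈ ({t.1, t.2.1, t.2.2} : Finset V), c u = z then (1 : ℝ) else 0 := by
      intro c
      rw [← Finset.sum_filter, Finset.sum_const, nsmul_eq_mul, mul_one]
      congr 2
      ext t
      simp [W]
    rw [Finset.sum_congr rfl fun c _ => e1 c, Finset.sum_comm,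
      Finset.sum_congr rfl fun t ht => by
        rw [cnt M z {t.1, t.2.1, t.2.2}, Finset.card_eq_three.mpr
          ⟨t.1, t.2.1, t.2.2, (hT t ht).1, (hT t ht).2.1, (hT t ht).2.2, rfl⟩]]
    simp [hn]
  have h4 : ∃ c ∈ (Finset.univ : Finset (V → Fin M)),
      ((n : ℝ) / M - a * E.card / (M : ℝ) ^ 2 - b * T.card / (M : ℝ) ^ 3) ≤
      ((W c).card : ℝ) - a * (E.filter fun e => e.1 ∈ W c ∧ e.2 ∈ W c).card -
        b * (T.filter fun t => t.1 ∈ W c ∧ t.2.1 ∈ W c ∧ t.2.2 ∈ W c).card := by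
    refine Finset.exists_le_of_sum_le ⟨fun _ => z, Finset.mem_univ _⟩ ?_
    have e0 : ∑ c : V → Fin M, (((W c).card : ℝ) -
        a * (E.filter fun e => e.1 ∈ W c ∧ e.2 ∈ W c).card -
        b * (T.filter fun t => t.1 ∈ W c ∧ t.2.1 ∈ W c ∧ t.2.2 ∈ W c).card) =
        n * ((M : ℝ) ^ n / M) - a * (E.card * ((M : ℝ) ^ n / (M : ℝ) ^ 2)) -
        b * (T.card * ((M : ℝ) ^ n / (M : ℝ) ^ 3)) := by
      rw [← h1, ← h2, ← h3, Finset.mul_sum, Finset.mul_sum, ← Finset.sum_sub_distrib,
        ← Finset.sum_sub_distrib]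
    rw [e0, Finset.sum_const, nsmul_eq_mul]
    apply le_of_eq
    have e : ((Finset.univ : Finset (V → Fin M)).card : ℝ) = (M : ℝ) ^ n := by
      rw [Finset.card_univ, Fintype.card_fun, Fintype.card_fin, hn]
      push_cast
      rfl
    rw [e]
    field_simp
  obtain ⟨c, -, hc⟩ := h4
  exact ⟨W c, hc⟩

end Vale.Agent.P042
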