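import Vale.Agent.P042.Defs
import Vale.Agent.P044.Main
import Vale.Agent.P044.Num

/-!
# P042: locally sparse graphs (from P044)
-/

set_option autoImplicit false

namespace Vale.Agent.P042

open Finset

/-- SP -/
theorem sp : S_SP := by
  intro ε hε hε1
  obtain ⟨D0, h⟩ := Vale.Agent.P044.gen Vale.Agent.P044.ord Vale.Agent.P044.deco
    Vale.Agent.P044.core' Vale.Agent.P044.num2 ε hε hε1
  refine ⟨D0, fun Δ hΔ V _ _ G _ hdeg htri k hk => ?_⟩
  have h1 := h Δ hΔ V G hdeg (fun S hS => ?_) k hk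
  · exact h1.list.colorable
  · obtain ⟨v, hv⟩ := hS
    refine ⟨v, hv, ?_⟩
    refine le_trans ?_ (htri v)
    have : ((S ×ˢ S).filter fun p => G.Adj v p.1 ∧ G.Adj v p.2 ∧ G.Adj p.1 p.2).card ≤
        ((Finset.univ : Finset (V × V)).filter fun p =>
          G.Adj v p.1 ∧ G.Adj v p.2 ∧ G.Adj p.1 p.2).card := by
      apply Finset.card_le_card
      intro p hp
      rw [Finset.mem_filter] at hp ⊢
      exact ⟨Finset.mem_univ _, hp.2⟩
    exact_mod_cast this

end Vale.Agent.P042
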