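import Vale.Agent.P042.Defs

/-!
# P042, module TRI (helper21): few solutions
-/

set_option autoImplicit false

namespace Vale.Agent.P042

open Polynomial

namespace TriH

/-- nonzero divisors -/
def ED (n : ℤ) : Finset ℤ :=
  (n.natAbs.divisors.image fun d : ℕ => (d : ℤ)) ∪ (n.natAbs.divisors.image fun d : ℕ => -(d : ℤ))

lemma card_ED (n : ℤ) : (ED n).card ≤ 2 * n.natAbs.divisors.card := by
  unfold ED
  refine (Finset.card_union_le _ _).trans ?_
  have h1 := Finset.card_image_le (s := n.natAbs.divisors) (f := fun d : ℕ => (d : ℤ))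
  have h2 := Finset.card_image_le (s := n.natAbs.divisors) (f := fun d : ℕ => -(d : ℤ))
  omega

lemma mem_ED {n e : ℤ} (hn : n ≠ 0) (he : e ∣ n) : e ∈ ED n := by
  unfold ED
  have h1 : e.natAbs ∈ n.natAbs.divisors := by
    rw [Nat.mem_divisors]
    exact ⟨Int.natAbs_dvd_natAbs.mpr he, by simpa using hn⟩
  rw [Finset.mem_union, Finset.mem_image, Finset.mem_image]
  rcases Int.natAbs_eq e with h | h
  · left
    exact ⟨e.natAbs, h1, h.symm⟩
  · right
    exact ⟨e.natAbs, h1, h.symm⟩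

/-- the shifted difference is not constant -/
lemma shift_ne (h : ℤ[X]) (hd : 2 ≤ h.natDegree) (e c : ℤ) (he : e ≠ 0) :
    h.comp (X + C e) - h - C c ≠ 0 := by
  intro h0
  have h1 : ∀ t : ℤ, h.eval (t + e) = h.eval t + c := by
    intro t
    have := congrArg (Polynomial.eval t) h0
    simp only [eval_sub, eval_comp, eval_add, eval_X, eval_C, eval_zero] at this
    linarith
  have h2 : ∀ n : ℕ, h.eval (e * (n : ℤ)) = h.eval 0 + n * c := by
    intro n
    induction n with
    | zero => simp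
    | succ n ih =>
      have : e * ((n + 1 : ℕ) : ℤ) = e * (n : ℤ) + e := by
        push_cast
        ring
      rw [this, h1, ih]
      push_cast
      ring
  have h3 : h.comp (C e * X) = C (h.eval 0) + C c * X := by
    refine Polynomial.eq_of_infinite_eval_eq _ _ ?_
    refine Set.Infinite.mono (s := Set.range fun n : ℕ => (n : ℤ)) ?_
      (Set.infinite_range_of_injective Nat.cast_injective)
    rintro _ ⟨n, rfl⟩
    simp only [Set.mem_ofPred_eq, eval_comp, eval_mul, eval_C, eval_X, eval_add]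
    rw [h2]
    ring
  have h4 : (h.comp (C e * X)).natDegree = h.natDegree := by
    rw [Polynomial.natDegree_comp, Polynomial.natDegree_C_mul_X e he, mul_one]
  have h5 : (C (h.eval 0) + C c * X : ℤ[X]).natDegree ≤ 1 := by
    refine (Polynomial.natDegree_add_le _ _).trans ?_
    refine max_le (by simp) ((Polynomial.natDegree_C_mul_le c X).trans Polynomial.natDegree_X_le)
  rw [← h3, h4] at h5
  omega

lemma card_roots_le (q : ℤ[X]) (k : ℕ) (hq : q.natDegree ≤ k) : q.roots.toFinset.card ≤ k :=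
  ((Multiset.toFinset_card_le _).trans (Polynomial.card_roots' q)).trans hq

lemma deg_shift (h : ℤ[X]) (e c : ℤ) :
    (h.comp (X + C e) - h - C c).natDegree ≤ h.natDegree := by
  rw [Polynomial.natDegree_sub_C]
  refine (Polynomial.natDegree_sub_le _ _).trans ?_
  refine max_le ?_ le_rfl
  rw [Polynomial.natDegree_comp, Polynomial.natDegree_X_add_C, mul_one]

/-- negative values -/
lemma exists_T (h : ℤ[X]) (hd : 2 ≤ h.natDegree) (hl : 0 < h.leadingCoeff) :
    ∃ T : ℤ, ∀ t : ℤ, h.eval t < 0 → t ≤ T := by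
  set q : ℝ[X] := h.map (Int.castRingHom ℝ) with hq
  have hinj : Function.Injective (Int.castRingHom ℝ) := Int.cast_injective
  have hdeg : 0 < q.degree := by
    rw [hq, Polynomial.degree_map_eq_of_injective hinj]
    refine Polynomial.natDegree_pos_iff_degree_pos.mp (by omega)
  have hlc : 0 ≤ q.leadingCoeff := by
    rw [hq, Polynomial.leadingCoeff_map_of_injective hinj]
    simp only [eq_intCast]
    exact_mod_cast hl.le
  have h1 := (Polynomial.tendsto_atTop_of_leadingCoeff_nonneg q hdeg hlc).eventually_ge_atTop 0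
  obtain ⟨T, hT⟩ := Filter.eventually_atTop.mp h1
  refine ⟨⌈T⌉, fun t ht => ?_⟩
  by_contra hc
  push Not at hc
  have h2 : T ≤ (t : ℝ) := (Int.le_ceil T).trans (by exact_mod_cast hc.le)
  have h3 := hT t h2
  have h4 : q.eval (t : ℝ) = ((h.eval t : ℤ) : ℝ) := by
    rw [hq]
    exact Polynomial.eval_intCast_map (Int.castRingHom ℝ) h t
  rw [h4] at h3
  have : (0 : ℤ) ≤ h.eval t := by exact_mod_cast h3
  omega

/-- all signs agree -/
noncomputable def T1 (h : ℤ[X]) (T : ℤ) (Y : ℕ) : Finset (ℤ × ℤ × ℤ) :=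
  (Finset.Icc 1 T).biUnion fun u => (Finset.Icc (1 : ℤ) Y).biUnion fun v =>
    ((h + C (h.eval u + h.eval v)).roots.toFinset).image fun w => (u, v, w)

lemma card_T1 (h : ℤ[X]) (T : ℤ) (Y : ℕ) :
    (T1 h T Y).card ≤ T.toNat * (Y * h.natDegree) := by
  unfold T1
  have h1 : (Finset.Icc 1 T).card = T.toNat := by
    rw [Int.card_Icc]
    congr 1
    ring
  have h2 : (Finset.Icc (1 : ℤ) Y).card = Y := by
    rw [Int.card_Icc]
    simp
  rw [← h1]
  refine Finset.card_biUnion_le_card_mul _ _ _ fun u _ => ?_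
  conv_rhs => rw [← h2]
  refine Finset.card_biUnion_le_card_mul _ _ _ fun v _ => ?_
  refine Finset.card_image_le.trans (card_roots_le _ _ ?_)
  rw [Polynomial.natDegree_add_C]

lemma mem_T1 {h : ℤ[X]} (hd : 2 ≤ h.natDegree) {T : ℤ} {Y : ℕ} {u v w : ℤ}
    (hT : ∀ t : ℤ, h.eval t < 0 → t ≤ T)
    (hu : u ∈ Finset.Icc (1 : ℤ) Y) (hv : v ∈ Finset.Icc (1 : ℤ) Y)
    (hun : h.eval u < 0) (hs : h.eval u + h.eval v + h.eval w = 0) :
    (u, v, w) ∈ T1 h T Y := by
  unfold T1
  simp only [Finset.mem_biUnion, Finset.mem_image]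
  refine ⟨u, Finset.mem_Icc.mpr ⟨(Finset.mem_Icc.mp hu).1, hT u hun⟩, v, hv, w, ?_, rfl⟩
  rw [Multiset.mem_toFinset, Polynomial.mem_roots']
  constructor
  · intro h0
    have : (h + C (h.eval u + h.eval v)).natDegree = h.natDegree := Polynomial.natDegree_add_C
    rw [h0, Polynomial.natDegree_zero] at this
    omega
  · rw [Polynomial.IsRoot.def, eval_add, eval_C]
    linarith

/-- `h w - h u = h v` -/
noncomputable def T2 (h : ℤ[X]) (N Y : ℕ) : Finset (ℤ × ℤ × ℤ) :=
  ((Finset.Icc (1 : ℤ) Y).filter fun v => h.eval v ≠ 0 ∧ |h.eval v| ≤ N).biUnion fun v =>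
    ((ED (h.eval v)).filter fun e => e ≠ 0).biUnion fun e =>
    ((h.comp (X + C e) - h - C (h.eval v)).roots.toFinset).image fun u => (u, v, u + e)

lemma card_T2 (h : ℤ[X]) (N Y : ℕ) (hN : 1 ≤ N) {ε A : ℝ} (hε : 0 < ε) (hA : 0 < A)
    (hdiv : ∀ n : ℕ, 1 ≤ n → (n.divisors.card : ℝ) ≤ A * (n : ℝ) ^ ε) :
    ((T2 h N Y).card : ℝ) ≤ Y * (2 * (A * (N : ℝ) ^ ε) * h.natDegree) := by
  unfold T2
  set S := (Finset.Icc (1 : ℤ) Y).filter fun v => h.eval v ≠ 0 ∧ |h.eval v| ≤ N with hS
  have hcS : (S.card : ℝ) ≤ Y := by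
    have h2 : (Finset.Icc (1 : ℤ) Y).card = Y := by
      rw [Int.card_Icc]
      simp
    have h3 : S.card ≤ Y := by
      rw [← h2]
      exact Finset.card_filter_le _ _
    exact_mod_cast h3
  have h1 : ∀ v ∈ S, ((((ED (h.eval v)).filter fun e => e ≠ 0).biUnion fun e =>
      ((h.comp (X + C e) - h - C (h.eval v)).roots.toFinset).image fun u => (u, v, u + e)).card
        : ℝ) ≤ 2 * (A * (N : ℝ) ^ ε) * h.natDegree := by
    intro v hv
    have hv' := (Finset.mem_filter.mp hv).2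
    have h2 : (((ED (h.eval v)).filter fun e => e ≠ 0).biUnion fun e =>
      ((h.comp (X + C e) - h - C (h.eval v)).roots.toFinset).image fun u => (u, v, u + e)).card ≤
        ((ED (h.eval v)).filter fun e => e ≠ 0).card * h.natDegree := by
      refine Finset.card_biUnion_le_card_mul _ _ _ fun e _ => ?_
      exact Finset.card_image_le.trans (card_roots_le _ _ (deg_shift h e _))
    have h3 : ((ED (h.eval v)).filter fun e => e ≠ 0).card ≤
        2 * (h.eval v).natAbs.divisors.card := (Finset.card_filter_le _ _).trans (card_ED _)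
    have h4 : ((h.eval v).natAbs.divisors.card : ℝ) ≤ A * (N : ℝ) ^ ε := by
      have hpos : 1 ≤ (h.eval v).natAbs := by
        have := Int.natAbs_pos.mpr hv'.1
        omega
      refine (hdiv _ hpos).trans ?_
      have h5 : ((h.eval v).natAbs : ℝ) ≤ N := by
        have : ((h.eval v).natAbs : ℤ) ≤ N := by
          rw [Int.natCast_natAbs]
          exact hv'.2
        exact_mod_cast this
      gcongr
    calc _ ≤ ((((ED (h.eval v)).filter fun e => e ≠ 0).card * h.natDegree : ℕ) : ℝ) := by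
          exact_mod_cast h2
      _ ≤ ((2 * (h.eval v).natAbs.divisors.card * h.natDegree : ℕ) : ℝ) := by
          have := Nat.mul_le_mul_right h.natDegree h3
          exact_mod_cast this
      _ = 2 * ((h.eval v).natAbs.divisors.card : ℝ) * h.natDegree := by push_cast; ring
      _ ≤ _ := by gcongr
  calc _ ≤ ∑ v ∈ S, ((((ED (h.eval v)).filter fun e => e ≠ 0).biUnion fun e =>
      ((h.comp (X + C e) - h - C (h.eval v)).roots.toFinset).image fun u => (u, v, u + e)).card
        : ℝ) := by exact_mod_cast Finset.card_biUnion_le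
    _ ≤ ∑ _v ∈ S, 2 * (A * (N : ℝ) ^ ε) * h.natDegree := Finset.sum_le_sum h1
    _ = S.card * (2 * (A * (N : ℝ) ^ ε) * h.natDegree) := by
        rw [Finset.sum_const, nsmul_eq_mul]
    _ ≤ _ := by gcongr

lemma mem_T2 {h : ℤ[X]} (hd : 2 ≤ h.natDegree) {N Y : ℕ} {u v w : ℤ}
    (hv : v ∈ Finset.Icc (1 : ℤ) Y) (hv0 : h.eval v ≠ 0) (hvN : |h.eval v| ≤ N)
    (hs : h.eval w - h.eval u = h.eval v) : (u, v, w) ∈ T2 h N Y := by
  have hne : w - u ≠ 0 := by
    intro h0
    have : w = u := by linarith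
    rw [this, sub_self] at hs
    exact hv0 hs.symm
  have hdvd : w - u ∣ h.eval v := by
    rw [← hs]
    exact Polynomial.sub_dvd_eval_sub w u h
  unfold T2
  simp only [Finset.mem_biUnion, Finset.mem_image, Finset.mem_filter]
  refine ⟨v, ⟨hv, hv0, hvN⟩, w - u, ⟨mem_ED hv0 hdvd, hne⟩, u, ?_, ?_⟩
  · rw [Multiset.mem_toFinset, Polynomial.mem_roots']
    refine ⟨shift_ne h hd _ _ hne, ?_⟩
    rw [Polynomial.IsRoot.def]
    simp only [eval_sub, eval_comp, eval_add, eval_X, eval_C]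
    have : u + (w - u) = w := by ring
    rw [this]
    linarith
  · have : u + (w - u) = w := by ring
    rw [this]

/-- the covering -/
lemma cover {h : ℤ[X]} (hd : 2 ≤ h.natDegree) {T : ℤ} {N Y : ℕ}
    (hT : ∀ t : ℤ, h.eval t < 0 → t ≤ T) :
    Sol h N Y ⊆ ((T1 h T Y ∪ (T1 h T Y).image fun p => (p.2.1, p.1, p.2.2)) ∪
      (T1 h T Y).image fun p => (p.2.1, p.2.2, p.1)) ∪
      ((T2 h N Y ∪ (T2 h N Y).image fun p => (p.1, p.2.2, p.2.1)) ∪
      (T2 h N Y).image fun p => (p.2.2, p.1, p.2.1)) := by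
  rintro ⟨x, y, z⟩ hp
  unfold Sol at hp
  simp only [Finset.mem_filter, Finset.mem_product] at hp
  obtain ⟨⟨hx, hy, hz⟩, hx0, hy0, hz0, hxN, hyN, hzN, σ, τ, υ, hσ, hτ, hυ, hs⟩ := hp
  simp only [Finset.mem_union, Finset.mem_image]
  have same : h.eval x + h.eval y + h.eval z = 0 →
      ((x, y, z) ∈ T1 h T Y ∨ (∃ a ∈ T1 h T Y, (a.2.1, a.1, a.2.2) = (x, y, z))) ∨
        ∃ a ∈ T1 h T Y, (a.2.1, a.2.2, a.1) = (x, y, z) := by
    intro h0
    by_cases h1 : h.eval x < 0
    · left; left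
      exact mem_T1 hd hT hx hy h1 h0
    by_cases h2 : h.eval y < 0
    · left; right
      exact ⟨(y, x, z), mem_T1 hd hT hy hx h2 (by linarith), rfl⟩
    by_cases h3 : h.eval z < 0
    · right
      exact ⟨(z, x, y), mem_T1 hd hT hz hx h3 (by linarith), rfl⟩
    exfalso
    push Not at h1 h2 h3
    have := lt_of_le_of_ne h1 (Ne.symm hx0)
    linarith
  have c1 : h.eval z - h.eval x = h.eval y → (x, y, z) ∈ T2 h N Y := fun h0 =>
    mem_T2 hd hy hy0 hyN h0
  have c2 : h.eval y - h.eval x = h.eval z →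
      ∃ a ∈ T2 h N Y, (a.1, a.2.2, a.2.1) = (x, y, z) := fun h0 =>
    ⟨(x, z, y), mem_T2 hd hz hz0 hzN h0, rfl⟩
  have c3 : h.eval x - h.eval y = h.eval z →
      ∃ a ∈ T2 h N Y, (a.2.2, a.1, a.2.1) = (x, y, z) := fun h0 =>
    ⟨(y, z, x), mem_T2 hd hz hz0 hzN h0, rfl⟩
  rcases hσ with rfl | rfl <;> rcases hτ with rfl | rfl <;> rcases hυ with rfl | rfl
  · exact Or.inl (same (by linarith))
  · exact Or.inr (Or.inl (Or.inl (c1 (by linarith))))
  · exact Or.inr (Or.inl (Or.inr (c2 (by linarith))))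
  · exact Or.inr (Or.inr (c3 (by linarith)))
  · exact Or.inr (Or.inr (c3 (by linarith)))
  · exact Or.inr (Or.inl (Or.inr (c2 (by linarith))))
  · exact Or.inr (Or.inl (Or.inl (c1 (by linarith))))
  · exact Or.inl (same (by linarith))

end TriH

theorem tri (DIV : S_DIV) : S_TRI := by
  intro h hd hl ε hε
  obtain ⟨A, hA, hdiv⟩ := DIV ε hε
  obtain ⟨T, hT⟩ := TriH.exists_T h hd hl
  refine ⟨3 * (T.toNat * h.natDegree) + 3 * (2 * A * h.natDegree), ?_, ?_⟩
  · have : (0 : ℝ) < h.natDegree := by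
      have : 0 < h.natDegree := by omega
      exact_mod_cast this
    positivity
  · intro N Y hN hY
    have h1 := Finset.card_le_card (TriH.cover (N := N) (Y := Y) hd hT)
    have h2 := TriH.card_T1 h T Y
    have h3 := TriH.card_T2 h N Y hN hε hA hdiv
    have h4 : (Sol h N Y).card ≤ 3 * (TriH.T1 h T Y).card + 3 * (TriH.T2 h N Y).card := by
      refine h1.trans ?_
      refine (Finset.card_union_le _ _).trans ?_
      have i1 := Finset.card_image_le (s := TriH.T1 h T Y)
        (f := fun p : ℤ × ℤ × ℤ => (p.2.1, p.1, p.2.2))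
      have i2 := Finset.card_image_le (s := TriH.T1 h T Y)
        (f := fun p : ℤ × ℤ × ℤ => (p.2.1, p.2.2, p.1))
      have i3 := Finset.card_image_le (s := TriH.T2 h N Y)
        (f := fun p : ℤ × ℤ × ℤ => (p.1, p.2.2, p.2.1))
      have i4 := Finset.card_image_le (s := TriH.T2 h N Y)
        (f := fun p : ℤ × ℤ × ℤ => (p.2.2, p.1, p.2.1))
      have j1 := Finset.card_union_le (TriH.T1 h T Y ∪ (TriH.T1 h T Y).image
        fun p => (p.2.1, p.1, p.2.2)) ((TriH.T1 h T Y).image fun p => (p.2.1, p.2.2, p.1))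
      have j2 := Finset.card_union_le (TriH.T1 h T Y) ((TriH.T1 h T Y).image
        fun p => (p.2.1, p.1, p.2.2))
      have j3 := Finset.card_union_le (TriH.T2 h N Y ∪ (TriH.T2 h N Y).image
        fun p => (p.1, p.2.2, p.2.1)) ((TriH.T2 h N Y).image fun p => (p.2.2, p.1, p.2.1))
      have j4 := Finset.card_union_le (TriH.T2 h N Y) ((TriH.T2 h N Y).image
        fun p => (p.1, p.2.2, p.2.1))
      omega
    have h5 : ((TriH.T1 h T Y).card : ℝ) ≤ T.toNat * (Y * h.natDegree) := by exact_mod_cast h2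
    have h6 : (1 : ℝ) ≤ (N : ℝ) ^ ε := Real.one_le_rpow (by exact_mod_cast hN) hε.le
    calc ((Sol h N Y).card : ℝ)
        ≤ 3 * ((TriH.T1 h T Y).card : ℝ) + 3 * ((TriH.T2 h N Y).card : ℝ) := by
          exact_mod_cast h4
      _ ≤ 3 * (T.toNat * (Y * h.natDegree)) * 1 +
          3 * (Y * (2 * (A * (N : ℝ) ^ ε) * h.natDegree)) := by
          rw [mul_one]
          gcongr
      _ ≤ 3 * (T.toNat * (Y * h.natDegree)) * (N : ℝ) ^ ε +
          3 * (Y * (2 * (A * (N : ℝ) ^ ε) * h.natDegree)) := by gcongr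
      _ = _ := by ring

end Vale.Agent.P042
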