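import Vale.Agent.P042.BLOCK
import Vale.Agent.P042.BLOCK1
import Vale.Agent.P042.Count
import Vale.Agent.P042.DIV
import Vale.Agent.P042.FinalA
import Vale.Agent.P042.FinalB
import Vale.Agent.P042.Greedy
import Vale.Agent.P042.Grow
import Vale.Agent.P042.Ind
import Vale.Agent.P042.LOCP
import Vale.Agent.P042.PRODG
import Vale.Agent.P042.Prim
import Vale.Agent.P042.Root
import Vale.Agent.P042.Samp
import Vale.Agent.P042.Sp
import Vale.Agent.P042.TRI

/-!
# P042: the modules put together
-/

set_option autoImplicit false

namespace Vale.Agent.P042

theorem partA : S_FINALA := finala sp grow (tri div)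

theorem partB : S_FINALB :=
  finalb (biggood (block locp (block1 (ind sp samp))) prodg) (count greedy root grow) prim

end Vale.Agent.P042
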